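import Vale.Agent.P139.H772.EW5
import Vale.Agent.P139.H312.I3

/-!
# `EvGood` from the one dimensional inequalities and the outer inequality
-/

noncomputable section

open MeasureTheory Set Filter Topology Complex ComplexConjugate

namespace Vale.Agent.P139.H772

open Vale.Agent.P139.KU (Ev Qinf' F0 F0')
open Vale.Agent.P139.H312 (Fl EvGood SymVal Box BigOut)

lemma bigIneq_iff_Fl {l : ℕ} {w R : ℝ} {lam : ℂ} (hR : 0 < R) :
    BigIneq l w (R ^ 2 / 4) lam ↔ Fl l w R lam := bigIneq_iff hR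

/-- **(I3)** from `BdIneq` (`l = 0, 1, 2, 3`) and the outer flux inequality. -/
theorem evGood_of_bd {w R : ℝ} (hw : w ≠ 0) (hR : 0 < R) (hQ : Qinf' 13 w R = 0)
    (hbd : ∀ l < 4, BdIneq l w (R ^ 2 / 4))
    (hbig : ∀ (l : ℕ) (lam : ℂ), 0 ≤ lam.re → (4 ≤ l ∨ 5 ≤ |lam.im|) → Fl l w R lam) :
    EvGood w R := by
  obtain ⟨h1, h2, h3, h4⟩ := evans_zeros hw hR hQ hbd
    (fun l lam h h' => (bigIneq_iff_Fl hR).2 (hbig l lam h h'))
  refine ⟨fun l lam h hS h0 => hS (h1 l lam h h0), ?_⟩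
  rintro l lam (⟨rfl, rfl | rfl⟩ | ⟨rfl, rfl⟩)
  · exact h2
  · exact h3
  · exact h4

/-- The same with 312's `BigOut`. -/
theorem evGood_of_bigOut {w R : ℝ} (hB : Box w R) (hQ : Qinf' 13 w R = 0)
    (hbd : ∀ l < 4, BdIneq l w (R ^ 2 / 4)) (hbig : BigOut w R) : EvGood w R :=
  evGood_of_bd hB.w_ne hB.R_pos hQ hbd (fun l lam h h' => hbig l lam h
    (h'.imp_right (fun h5 => le_trans (by norm_num) h5)))

end Vale.Agent.P139.H772
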