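import Vale.Agent.P139.H772.Box1

/-!
# Kernel checked boxes for the flux positivity, `l = 10, 11, 12, 13, 14, 15, 16`
-/

namespace Vale.Agent.P139.H772

open Vale.Agent.P139.H472

set_option maxRecDepth 20000


/-- tree for `l = 10` -/
def tr10 : Tr := .sy (.sy (.sy (.sy (.leaf 21) (.leaf 21)) (.sy (.leaf 20) (.leaf 19))) (.sy (.sy (.leaf 18) (.leaf 18)) (.sy (.leaf 19) (.sy (.leaf 13) (.leaf 13))))) (.sy (.sy (.sy (.sy (.leaf 13) (.leaf 12)) (.sy (.leaf 12) (.leaf 12))) (.sy (.sy (.leaf 11) (.leaf 11)) (.sy (.leaf 13) (.sx (.leaf 9) (.leaf 8))))) (.sy (.sy (.sy (.sx (.leaf 8) (.leaf 7)) (.sx (.leaf 8) (.leaf 7))) (.sy (.sx (.leaf 8) (.leaf 7)) (.sx (.leaf 8) (.leaf 7)))) (.sy (.sy (.sx (.leaf 8) (.leaf 6)) (.sx (.leaf 8) (.leaf 6))) (.sy (.sx (.leaf 7) (.leaf 6)) (.sx (.leaf 7) (.leaf 6))))))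

theorem chk10 : chk (4362862139015168) irho0 (0) tr10 (1407374883553280) (1688849860263936) (-4785074604081152) (0) = true := by
  decide +kernel

/-- tree for `l = 11` -/
def tr11 : Tr := .sy (.sy (.sy (.sy (.leaf 24) (.leaf 23)) (.sy (.leaf 22) (.leaf 21))) (.sy (.sy (.leaf 20) (.leaf 19)) (.sy (.leaf 19) (.sy (.leaf 14) (.leaf 14))))) (.sy (.sy (.sy (.sy (.leaf 13) (.leaf 13)) (.sy (.leaf 12) (.leaf 12))) (.sy (.sy (.leaf 11) (.leaf 11)) (.sy (.leaf 11) (.leaf 11)))) (.sy (.sy (.sy (.leaf 11) (.sx (.leaf 8) (.leaf 7))) (.sy (.sx (.leaf 8) (.leaf 7)) (.sx (.leaf 8) (.leaf 7)))) (.sy (.sy (.sx (.leaf 8) (.leaf 7)) (.sx (.leaf 8) (.leaf 7))) (.sy (.sx (.leaf 8) (.leaf 7)) (.sx (.leaf 7) (.leaf 6))))))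

theorem chk11 : chk (4644337115725824) irho0 (0) tr11 (1548112371908608) (1829587348619264) (-5418393301680128) (0) = true := by
  decide +kernel

/-- tree for `l = 12` -/
def tr12 : Tr := .sy (.sy (.sy (.sy (.leaf 28) (.leaf 26)) (.sy (.leaf 25) (.leaf 23))) (.sy (.sy (.leaf 22) (.leaf 21)) (.sy (.leaf 20) (.leaf 21)))) (.sy (.sy (.sy (.sy (.leaf 14) (.leaf 13)) (.sy (.leaf 13) (.leaf 12))) (.sy (.sy (.leaf 12) (.leaf 11)) (.sy (.leaf 11) (.leaf 11)))) (.sy (.sy (.sy (.leaf 10) (.leaf 10)) (.sy (.leaf 11) (.sx (.leaf 8) (.leaf 7)))) (.sy (.sy (.sx (.leaf 8) (.leaf 7)) (.sx (.leaf 8) (.leaf 7))) (.sy (.sx (.leaf 8) (.leaf 7)) (.sx (.leaf 8) (.leaf 7))))))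

theorem chk12 : chk (4925812092436480) irho0 (0) tr12 (1688849860263936) (1970324836974592) (-6051711999279104) (0) = true := by
  decide +kernel

/-- tree for `l = 13` -/
def tr13 : Tr := .sy (.sy (.sy (.sy (.leaf 32) (.leaf 30)) (.sy (.leaf 28) (.leaf 26))) (.sy (.sy (.leaf 25) (.leaf 23)) (.sy (.leaf 22) (.leaf 23)))) (.sy (.sy (.sy (.sy (.leaf 15) (.leaf 14)) (.sy (.leaf 14) (.leaf 13))) (.sy (.sy (.leaf 12) (.leaf 12)) (.sy (.leaf 11) (.leaf 11)))) (.sy (.sy (.sy (.leaf 10) (.leaf 10)) (.sy (.leaf 10) (.leaf 10))) (.sy (.sy (.leaf 11) (.sx (.leaf 8) (.leaf 7))) (.sy (.sx (.leaf 8) (.leaf 7)) (.sx (.leaf 8) (.leaf 7))))))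

theorem chk13 : chk (5207287069147136) irho0 (0) tr13 (1829587348619264) (2111062325329920) (-6755399441055744) (0) = true := by
  decide +kernel

/-- tree for `l = 14` -/
def tr14 : Tr := .sy (.sy (.sy (.sy (.leaf 37) (.leaf 35)) (.sy (.leaf 32) (.leaf 30))) (.sy (.sy (.leaf 28) (.leaf 26)) (.sy (.leaf 25) (.leaf 26)))) (.sy (.sy (.sy (.sy (.leaf 16) (.leaf 15)) (.sy (.leaf 15) (.leaf 14))) (.sy (.sy (.leaf 13) (.leaf 13)) (.sy (.leaf 12) (.leaf 11)))) (.sy (.sy (.sy (.leaf 11) (.leaf 10)) (.sy (.leaf 10) (.leaf 10))) (.sy (.sy (.leaf 10) (.leaf 10)) (.sy (.leaf 9) (.leaf 9)))))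

theorem chk14 : chk (5488762045857792) irho0 (0) tr14 (1970324836974592) (2251799813685248) (-7529455627010048) (0) = true := by
  decide +kernel

/-- tree for `l = 15` -/
def tr15 : Tr := .sy (.sy (.sy (.sy (.leaf 43) (.leaf 40)) (.sy (.leaf 37) (.leaf 34))) (.sy (.sy (.leaf 32) (.leaf 29)) (.sy (.leaf 28) (.sy (.leaf 19) (.leaf 18))))) (.sy (.sy (.sy (.sy (.leaf 17) (.leaf 16)) (.sy (.leaf 16) (.leaf 15))) (.sy (.sy (.leaf 14) (.leaf 13)) (.sy (.leaf 13) (.leaf 12)))) (.sy (.sy (.sy (.leaf 11) (.leaf 11)) (.sy (.leaf 10) (.leaf 10))) (.sy (.sy (.leaf 10) (.leaf 9)) (.sy (.leaf 9) (.leaf 9)))))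

theorem chk15 : chk (5770237022568448) irho0 (0) tr15 (2111062325329920) (2392537302040576) (-8303511812964352) (0) = true := by
  decide +kernel

/-- tree for `l = 16` -/
def tr16 : Tr := .sy (.sy (.sy (.sy (.leaf 52) (.leaf 47)) (.sy (.leaf 43) (.leaf 40))) (.sy (.sy (.leaf 36) (.leaf 33)) (.sy (.leaf 33) (.sy (.leaf 21) (.leaf 20))))) (.sy (.sy (.sy (.sy (.leaf 19) (.leaf 18)) (.sy (.leaf 17) (.leaf 16))) (.sy (.sy (.leaf 15) (.leaf 14)) (.sy (.leaf 13) (.leaf 13)))) (.sy (.sy (.sy (.leaf 12) (.leaf 11)) (.sy (.leaf 11) (.leaf 10))) (.sy (.sy (.leaf 10) (.leaf 10)) (.sy (.leaf 9) (.leaf 9)))))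

theorem chk16 : chk (6051711999279104) irho0 (0) tr16 (2251799813685248) (2533274790395904) (-9147936743096320) (0) = true := by
  decide +kernel

end Vale.Agent.P139.H772
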