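import Vale.Agent.P139.H772.Box1

/-!
# Kernel checked boxes for the flux positivity, `l = 17, 18, 19, 20`
-/

namespace Vale.Agent.P139.H772

open Vale.Agent.P139.H472

set_option maxRecDepth 20000


/-- tree for `l = 17` -/
def tr17 : Tr := .sy (.sy (.sy (.sy (.leaf 64) (.leaf 57)) (.sy (.leaf 51) (.leaf 46))) (.sy (.sy (.leaf 42) (.leaf 38)) (.sy (.sy (.leaf 25) (.leaf 23)) (.sy (.leaf 22) (.leaf 21))))) (.sy (.sy (.sy (.sy (.leaf 20) (.leaf 19)) (.sy (.leaf 18) (.leaf 17))) (.sy (.sy (.leaf 16) (.leaf 15)) (.sy (.leaf 14) (.leaf 13)))) (.sy (.sy (.sy (.leaf 12) (.leaf 12)) (.sy (.leaf 11) (.leaf 11))) (.sy (.sy (.leaf 10) (.leaf 10)) (.sy (.leaf 10) (.leaf 9)))))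

theorem chk17 : chk (6333186975989760) irho0 (0) tr17 (2392537302040576) (2674012278751232) (-9992361673228288) (0) = true := by
  decide +kernel

/-- tree for `l = 18` -/
def tr18 : Tr := .sy (.sy (.sy (.sy (.sy (.leaf 44) (.leaf 42)) (.sy (.leaf 41) (.leaf 39))) (.sy (.leaf 65) (.leaf 56))) (.sy (.sy (.leaf 50) (.sy (.leaf 30) (.leaf 28))) (.sy (.sy (.leaf 27) (.leaf 26)) (.sy (.leaf 24) (.leaf 23))))) (.sy (.sy (.sy (.sy (.leaf 22) (.leaf 20)) (.sy (.leaf 19) (.leaf 18))) (.sy (.sy (.leaf 17) (.leaf 16)) (.sy (.leaf 15) (.leaf 14)))) (.sy (.sy (.sy (.leaf 13) (.leaf 12)) (.sy (.leaf 12) (.leaf 11))) (.sy (.sy (.leaf 11) (.leaf 10)) (.sy (.leaf 10) (.leaf 10)))))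

theorem chk18 : chk (6614661952700416) irho0 (0) tr18 (2533274790395904) (2814749767106560) (-10907155347537920) (0) = true := by
  decide +kernel

/-- tree for `l = 19` -/
def tr19 : Tr := .sy (.sy (.sy (.sy (.sy (.leaf 49) (.leaf 47)) (.sy (.leaf 45) (.leaf 44))) (.sy (.sy (.leaf 42) (.leaf 40)) (.sy (.leaf 39) (.leaf 37)))) (.sy (.sy (.sy (.leaf 36) (.leaf 34)) (.sy (.leaf 33) (.leaf 31))) (.sy (.sy (.leaf 29) (.leaf 28)) (.sy (.leaf 26) (.leaf 25))))) (.sy (.sy (.sy (.sy (.leaf 24) (.leaf 22)) (.sy (.leaf 21) (.leaf 20))) (.sy (.sy (.leaf 18) (.leaf 17)) (.sy (.leaf 16) (.leaf 15)))) (.sy (.sy (.sy (.leaf 14) (.leaf 13)) (.sy (.leaf 12) (.leaf 11))) (.sy (.sy (.leaf 11) (.leaf 10)) (.sy (.leaf 10) (.leaf 10)))))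

theorem chk19 : chk (6896136929411072) irho0 (0) tr19 (2674012278751232) (2955487255461888) (-11892317766025216) (0) = true := by
  decide +kernel

/-- tree for `l = 20` -/
def tr20 : Tr := .sy (.sy (.sy (.sy (.sy (.leaf 54) (.leaf 52)) (.sy (.leaf 50) (.leaf 48))) (.sy (.sy (.leaf 46) (.leaf 45)) (.sy (.leaf 43) (.leaf 41)))) (.sy (.sy (.sy (.leaf 39) (.leaf 37)) (.sy (.leaf 36) (.leaf 34))) (.sy (.sy (.leaf 32) (.leaf 30)) (.sy (.leaf 29) (.leaf 27))))) (.sy (.sy (.sy (.sy (.leaf 26) (.leaf 24)) (.sy (.leaf 22) (.leaf 21))) (.sy (.sy (.leaf 20) (.leaf 18)) (.sy (.leaf 17) (.leaf 16)))) (.sy (.sy (.sy (.leaf 15) (.leaf 14)) (.sy (.leaf 13) (.leaf 12))) (.sy (.sy (.leaf 11) (.leaf 11)) (.sy (.leaf 10) (.leaf 10)))))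

theorem chk20 : chk (7177611906121728) irho0 (0) tr20 (2814749767106560) (3096224743817216) (-12877480184512512) (0) = true := by
  decide +kernel

end Vale.Agent.P139.H772
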