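import Vale.Agent.P139.H772.Box1

/-!
# Kernel checked boxes for the flux positivity, `l = 21, 22`
-/

namespace Vale.Agent.P139.H772

open Vale.Agent.P139.H472

set_option maxRecDepth 20000


/-- tree for `l = 21` -/
def tr21 : Tr := .sy (.sy (.sy (.sy (.sy (.leaf 60) (.leaf 57)) (.sy (.leaf 55) (.leaf 53))) (.sy (.sy (.leaf 51) (.leaf 49)) (.sy (.leaf 47) (.leaf 45)))) (.sy (.sy (.sy (.leaf 43) (.leaf 41)) (.sy (.leaf 39) (.leaf 37))) (.sy (.sy (.leaf 35) (.leaf 33)) (.sy (.leaf 31) (.leaf 29))))) (.sy (.sy (.sy (.sy (.leaf 28) (.leaf 26)) (.sy (.leaf 24) (.leaf 22))) (.sy (.sy (.leaf 21) (.leaf 19)) (.sy (.leaf 18) (.leaf 17)))) (.sy (.sy (.sy (.leaf 15) (.leaf 14)) (.sy (.leaf 13) (.leaf 12))) (.sy (.sy (.leaf 12) (.leaf 11)) (.sy (.leaf 11) (.leaf 11)))))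

theorem chk21 : chk (7459086882832384) irho0 (0) tr21 (2955487255461888) (3236962232172544) (-13862642602999808) (0) = true := by
  decide +kernel

/-- tree for `l = 22` -/
def tr22 : Tr := .sy (.sy (.sy (.sy (.sy (.leaf 66) (.leaf 64)) (.sy (.leaf 61) (.leaf 59))) (.sy (.sy (.leaf 56) (.leaf 54)) (.sy (.leaf 52) (.leaf 49)))) (.sy (.sy (.sy (.leaf 47) (.leaf 45)) (.sy (.leaf 43) (.leaf 40))) (.sy (.sy (.leaf 38) (.leaf 36)) (.sy (.leaf 34) (.leaf 32))))) (.sy (.sy (.sy (.sy (.leaf 30) (.leaf 28)) (.sy (.leaf 26) (.leaf 24))) (.sy (.sy (.leaf 22) (.leaf 21)) (.sy (.leaf 19) (.leaf 18)))) (.sy (.sy (.sy (.leaf 16) (.leaf 15)) (.sy (.leaf 14) (.leaf 13))) (.sy (.sy (.leaf 12) (.leaf 12)) (.sy (.leaf 11) (.leaf 11)))))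

theorem chk22 : chk (7740561859543040) irho0 (0) tr22 (3096224743817216) (3377699720527872) (-14918173765664768) (0) = true := by
  decide +kernel

end Vale.Agent.P139.H772
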