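import Vale.Agent.P139.H772.Box3
import Vale.Agent.P139.H772.Box4
import Vale.Agent.P139.H772.Box5
import Vale.Agent.P139.H772.Box6

/-!
# Flux positivity for `10 ≤ l ≤ 22`, `0 ≤ w - Im lam ≤ 7/100 (l + 11/2)²`
-/

noncomputable section

open MeasureTheory Set Filter Topology Complex ComplexConjugate

namespace Vale.Agent.P139.H772

open Vale.Agent.P139.KU (S aE bE F0 F0' aE_re)
open Vale.Agent.P139.H472 (SR SR_pos SZ_cast)
open Vale.Agent.P139.H312 (Fl)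

/-- From a checked tree to the inequality. -/
theorem bigIneq_of_chk {l : ℕ} {b2 : Int} (hb : beR l * SR = (b2 : ℝ)) {T : Tr}
    {x0 x1 y0 : Int} (hchk : chk b2 irho0 0 T x0 x1 y0 0 = true)
    (hx0 : (x0 : ℝ) = (beR l / 2 - 11 / 4) * SR) (hx1 : (x1 : ℝ) = (beR l / 2 - 7 / 4) * SR)
    {Y : ℝ} (hy : (y0 : ℝ) = -Y * SR) {w ρ : ℝ} {lam : ℂ} (h1 : 2.66394 ≤ ρ)
    (h2 : ρ ≤ 2.66399) (h3 : 0 ≤ lam.re) (h5 : 0 ≤ w - lam.im) (h6 : w - lam.im ≤ Y) :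
    BigIneq l w ρ lam := by
  have hρ : 0 < ρ := by linarith
  have hS := SR_pos
  rcases le_total (11 / 4) lam.re with h4 | h4
  · exact bigIneq_of_re hρ h4
  have hq := ladA_qv (l := l) (w := w) (ρ := ρ) (lam := lam) (by linarith) hρ
  obtain ⟨d, c⟩ := box_sound hb hq h1 h2 hchk hx0 hx1
    (by rw [aE_re, beR]; linarith) (by rw [aE_re, beR]; linarith)
    (by rw [hy, aE_im']; exact mul_le_mul_of_nonneg_right (by linarith) hS.le)
    (by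
      rw [aE_im', Int.cast_zero]
      exact mul_nonpos_of_nonpos_of_nonneg (by linarith) hS.le)
  rw [Int.cast_zero] at c
  have c' : 0 < (qv l w ρ lam 0).re := by
    by_contra hc
    exact absurd c (not_lt.2 (mul_nonpos_of_nonpos_of_nonneg (not_lt.1 hc) hS.le))
  have r1 := bigIneq_of_qv (by linarith) hρ (fun i _ => d i) (le_refl _)
  exact bigIneq_of_ratio c' r1

section

variable {w ρ : ℝ} {lam : ℂ}

theorem big10 (h1 : 2.66394 ≤ ρ) (h2 : ρ ≤ 2.66399) (h3 : 0 ≤ lam.re)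
    (h5 : 0 ≤ w - lam.im) (h6 : w - lam.im ≤ 17) : BigIneq 10 w ρ lam :=
  bigIneq_of_chk (by simp only [beR, SR]; norm_num) chk10 (by simp only [beR, SR]; norm_num)
    (by simp only [beR, SR]; norm_num) (by simp only [SR]; norm_num) h1 h2 h3 h5 h6

theorem big11 (h1 : 2.66394 ≤ ρ) (h2 : ρ ≤ 2.66399) (h3 : 0 ≤ lam.re)
    (h5 : 0 ≤ w - lam.im) (h6 : w - lam.im ≤ 77 / 4) : BigIneq 11 w ρ lam :=
  bigIneq_of_chk (by simp only [beR, SR]; norm_num) chk11 (by simp only [beR, SR]; norm_num)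
    (by simp only [beR, SR]; norm_num) (by simp only [SR]; norm_num) h1 h2 h3 h5 h6

theorem big12 (h1 : 2.66394 ≤ ρ) (h2 : ρ ≤ 2.66399) (h3 : 0 ≤ lam.re)
    (h5 : 0 ≤ w - lam.im) (h6 : w - lam.im ≤ 43 / 2) : BigIneq 12 w ρ lam :=
  bigIneq_of_chk (by simp only [beR, SR]; norm_num) chk12 (by simp only [beR, SR]; norm_num)
    (by simp only [beR, SR]; norm_num) (by simp only [SR]; norm_num) h1 h2 h3 h5 h6

theorem big13 (h1 : 2.66394 ≤ ρ) (h2 : ρ ≤ 2.66399) (h3 : 0 ≤ lam.re)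
    (h5 : 0 ≤ w - lam.im) (h6 : w - lam.im ≤ 24) : BigIneq 13 w ρ lam :=
  bigIneq_of_chk (by simp only [beR, SR]; norm_num) chk13 (by simp only [beR, SR]; norm_num)
    (by simp only [beR, SR]; norm_num) (by simp only [SR]; norm_num) h1 h2 h3 h5 h6

theorem big14 (h1 : 2.66394 ≤ ρ) (h2 : ρ ≤ 2.66399) (h3 : 0 ≤ lam.re)
    (h5 : 0 ≤ w - lam.im) (h6 : w - lam.im ≤ 107 / 4) : BigIneq 14 w ρ lam :=
  bigIneq_of_chk (by simp only [beR, SR]; norm_num) chk14 (by simp only [beR, SR]; norm_num)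
    (by simp only [beR, SR]; norm_num) (by simp only [SR]; norm_num) h1 h2 h3 h5 h6

theorem big15 (h1 : 2.66394 ≤ ρ) (h2 : ρ ≤ 2.66399) (h3 : 0 ≤ lam.re)
    (h5 : 0 ≤ w - lam.im) (h6 : w - lam.im ≤ 59 / 2) : BigIneq 15 w ρ lam :=
  bigIneq_of_chk (by simp only [beR, SR]; norm_num) chk15 (by simp only [beR, SR]; norm_num)
    (by simp only [beR, SR]; norm_num) (by simp only [SR]; norm_num) h1 h2 h3 h5 h6

theorem big16 (h1 : 2.66394 ≤ ρ) (h2 : ρ ≤ 2.66399) (h3 : 0 ≤ lam.re)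
    (h5 : 0 ≤ w - lam.im) (h6 : w - lam.im ≤ 65 / 2) : BigIneq 16 w ρ lam :=
  bigIneq_of_chk (by simp only [beR, SR]; norm_num) chk16 (by simp only [beR, SR]; norm_num)
    (by simp only [beR, SR]; norm_num) (by simp only [SR]; norm_num) h1 h2 h3 h5 h6

theorem big17 (h1 : 2.66394 ≤ ρ) (h2 : ρ ≤ 2.66399) (h3 : 0 ≤ lam.re)
    (h5 : 0 ≤ w - lam.im) (h6 : w - lam.im ≤ 71 / 2) : BigIneq 17 w ρ lam :=
  bigIneq_of_chk (by simp only [beR, SR]; norm_num) chk17 (by simp only [beR, SR]; norm_num)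
    (by simp only [beR, SR]; norm_num) (by simp only [SR]; norm_num) h1 h2 h3 h5 h6

theorem big18 (h1 : 2.66394 ≤ ρ) (h2 : ρ ≤ 2.66399) (h3 : 0 ≤ lam.re)
    (h5 : 0 ≤ w - lam.im) (h6 : w - lam.im ≤ 155 / 4) : BigIneq 18 w ρ lam :=
  bigIneq_of_chk (by simp only [beR, SR]; norm_num) chk18 (by simp only [beR, SR]; norm_num)
    (by simp only [beR, SR]; norm_num) (by simp only [SR]; norm_num) h1 h2 h3 h5 h6

theorem big19 (h1 : 2.66394 ≤ ρ) (h2 : ρ ≤ 2.66399) (h3 : 0 ≤ lam.re)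
    (h5 : 0 ≤ w - lam.im) (h6 : w - lam.im ≤ 169 / 4) : BigIneq 19 w ρ lam :=
  bigIneq_of_chk (by simp only [beR, SR]; norm_num) chk19 (by simp only [beR, SR]; norm_num)
    (by simp only [beR, SR]; norm_num) (by simp only [SR]; norm_num) h1 h2 h3 h5 h6

theorem big20 (h1 : 2.66394 ≤ ρ) (h2 : ρ ≤ 2.66399) (h3 : 0 ≤ lam.re)
    (h5 : 0 ≤ w - lam.im) (h6 : w - lam.im ≤ 183 / 4) : BigIneq 20 w ρ lam :=
  bigIneq_of_chk (by simp only [beR, SR]; norm_num) chk20 (by simp only [beR, SR]; norm_num)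
    (by simp only [beR, SR]; norm_num) (by simp only [SR]; norm_num) h1 h2 h3 h5 h6

theorem big21 (h1 : 2.66394 ≤ ρ) (h2 : ρ ≤ 2.66399) (h3 : 0 ≤ lam.re)
    (h5 : 0 ≤ w - lam.im) (h6 : w - lam.im ≤ 197 / 4) : BigIneq 21 w ρ lam :=
  bigIneq_of_chk (by simp only [beR, SR]; norm_num) chk21 (by simp only [beR, SR]; norm_num)
    (by simp only [beR, SR]; norm_num) (by simp only [SR]; norm_num) h1 h2 h3 h5 h6

theorem big22 (h1 : 2.66394 ≤ ρ) (h2 : ρ ≤ 2.66399) (h3 : 0 ≤ lam.re)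
    (h5 : 0 ≤ w - lam.im) (h6 : w - lam.im ≤ 53) : BigIneq 22 w ρ lam :=
  bigIneq_of_chk (by simp only [beR, SR]; norm_num) chk22 (by simp only [beR, SR]; norm_num)
    (by simp only [beR, SR]; norm_num) (by simp only [SR]; norm_num) h1 h2 h3 h5 h6

/-- `10 ≤ l ≤ 22`. -/
theorem big_box2 {l : ℕ} (h1 : 2.66394 ≤ ρ) (h2 : ρ ≤ 2.66399) (h3 : 0 ≤ lam.re)
    (h5 : 0 ≤ w - lam.im) (hl : 10 ≤ l) (hl2 : l ≤ 22)
    (h6 : w - lam.im ≤ 7 / 100 * ((l : ℝ) + 11 / 2) ^ 2) : BigIneq l w ρ lam := by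
  interval_cases l
  · exact big10 h1 h2 h3 h5 (h6.trans (by norm_num))
  · exact big11 h1 h2 h3 h5 (h6.trans (by norm_num))
  · exact big12 h1 h2 h3 h5 (h6.trans (by norm_num))
  · exact big13 h1 h2 h3 h5 (h6.trans (by norm_num))
  · exact big14 h1 h2 h3 h5 (h6.trans (by norm_num))
  · exact big15 h1 h2 h3 h5 (h6.trans (by norm_num))
  · exact big16 h1 h2 h3 h5 (h6.trans (by norm_num))
  · exact big17 h1 h2 h3 h5 (h6.trans (by norm_num))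
  · exact big18 h1 h2 h3 h5 (h6.trans (by norm_num))
  · exact big19 h1 h2 h3 h5 (h6.trans (by norm_num))
  · exact big20 h1 h2 h3 h5 (h6.trans (by norm_num))
  · exact big21 h1 h2 h3 h5 (h6.trans (by norm_num))
  · exact big22 h1 h2 h3 h5 (h6.trans (by norm_num))

/-- `10 ≤ l ≤ 22`, in terms of `Fl`. -/
theorem fl_box2 {l : ℕ} {R : ℝ} (hR : 0 < R) (h1 : 2.66394 ≤ R ^ 2 / 4)
    (h2 : R ^ 2 / 4 ≤ 2.66399) (h3 : 0 ≤ lam.re) (h5 : 0 ≤ w - lam.im) (hl : 10 ≤ l)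
    (hl2 : l ≤ 22) (h6 : w - lam.im ≤ 7 / 100 * ((l : ℝ) + 11 / 2) ^ 2) : Fl l w R lam := by
  rw [← bigIneq_iff_Fl hR]
  exact big_box2 h1 h2 h3 h5 hl hl2 h6

end

end Vale.Agent.P139.H772
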