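import Vale.Agent.P139.H772.EW3

/-!
# Zeros of the hard wall Evans functions, `d = 13`
-/

noncomputable section

open MeasureTheory Set Filter Topology Complex ComplexConjugate

namespace Vale.Agent.P139.H772

open Vale.Agent.P139.KU (S G dG aE bE F0 F0' F0s F0s' Ev Qinf' differentiableAt_G_param
  differentiableAt_Ev Ev_conj Ev_zero Ev_one Ev_half aE_re aE_conj_re)

/-- Two outer inequalities exclude a zero. -/
theorem EvN_ne_of_big {l : ℕ} {w ρ : ℝ} {lam : ℂ} (h1 : BigIneq l w ρ lam)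
    (h2 : BigIneq l w ρ (conj lam)) : EvN l w ρ lam ≠ 0 := by
  unfold BigIneq at h1 h2
  unfold EvN
  set D := DS (aE l w lam) (bR l) ρ
  set s := S (aE l w lam) (bR l) ρ
  set D' := DS (aE l w (conj lam)) (bR l) ρ
  set s' := S (aE l w (conj lam)) (bR l) ρ
  have hs : s ≠ 0 := by
    intro h; rw [h] at h1; simp at h1
  have hs' : s' ≠ 0 := by
    intro h; rw [h] at h2; simp at h2
  intro h0
  have e : (D * conj s' + s * conj D') * (conj s * s') =
      (D * conj s) * (normSq s' : ℂ) + (conj (D' * conj s')) * (normSq s : ℂ) := by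
    rw [← Complex.mul_conj, ← Complex.mul_conj, map_mul, Complex.conj_conj]
    ring
  rw [h0, zero_mul] at e
  have e2 := congrArg Complex.re e
  rw [Complex.add_re, Complex.re_mul_ofReal, Complex.re_mul_ofReal, Complex.conj_re,
    Complex.zero_re] at e2
  have p1 : 0 < normSq s := Complex.normSq_pos.2 hs
  have p2 : 0 < normSq s' := Complex.normSq_pos.2 hs'
  have p3 := mul_pos h1 p2
  have p4 := mul_pos h2 p1
  linarith

/-- The outer inequality holds for `Re lam ≥ 11/4`. -/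
theorem bigIneq_of_re {l : ℕ} {w ρ : ℝ} {lam : ℂ} (hρ : 0 < ρ) (h : 11 / 4 ≤ lam.re) :
    BigIneq l w ρ lam := by
  have hl : (0 : ℝ) ≤ l := Nat.cast_nonneg l
  have hab : (bR l - 1) / 2 ≤ (aE l w lam).re := by rw [aE_re, bR]; linarith
  have hb : 2 < bR l := by rw [bR]; linarith
  have hS : S (aE l w lam) (bR l) ρ ≠ 0 := S_ne_zero hb hab hρ
  have h2 := re_DS (b := bR l) (by rw [aE_re]; linarith) hab hρ
  have h3 : 0 < normSq (S (aE l w lam) (bR l) ρ) := Complex.normSq_pos.2 hS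
  have h4 : 0 < (bR l - 1) / 2 * normSq (S (aE l w lam) (bR l) ρ) :=
    mul_pos (by linarith) h3
  exact lt_of_lt_of_le h4 h2

lemma differentiableOn_EvN (l : ℕ) (w : ℝ) {R : ℝ} (hR : 0 < R) :
    DifferentiableOn ℂ (EvN l w (R ^ 2 / 4)) HP := by
  have e : EvN l w (R ^ 2 / 4) = fun lam => -(R / 2) * Ev 13 l w R lam := by
    funext lam; exact EvN_eq l w hR lam
  rw [e]
  intro z hz
  have hz' : -1 / 10 < z.re := hz
  have hl : (0 : ℝ) ≤ l := Nat.cast_nonneg l
  exact ((differentiableAt_Ev (d := 13) (l := l) (w := w) (lam := z) (by linarith)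
    hR).const_mul _).differentiableWithinAt

/-- `(I3)`: location and simplicity of the zeros. -/
theorem evans_zeros {w R : ℝ} (hw : w ≠ 0) (hR : 0 < R) (hQ : Qinf' 13 w R = 0)
    (hbd : ∀ l < 4, BdIneq l w (R ^ 2 / 4))
    (hbig : ∀ (l : ℕ) (lam : ℂ), 0 ≤ lam.re → (4 ≤ l ∨ 5 ≤ |lam.im|) → BigIneq l w (R ^ 2 / 4) lam) :
    (∀ (l : ℕ) (lam : ℂ), 0 ≤ lam.re → Ev 13 l w R lam = 0 →
      (l = 0 ∧ (lam = 0 ∨ lam = 1)) ∨ (l = 1 ∧ lam = 1 / 2)) ∧
    deriv (Ev 13 0 w R) 0 ≠ 0 ∧ deriv (Ev 13 0 w R) 1 ≠ 0 ∧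
    deriv (Ev 13 1 w R) (1 / 2) ≠ 0 := by
  have hρ : 0 < R ^ 2 / 4 := by positivity
  have hR2 : (-((R : ℂ) / 2)) ≠ 0 := by
    have : (R : ℂ) ≠ 0 := by exact_mod_cast hR.ne'
    simp [this]
  have m0 : (0 : ℂ) ∈ HP := by show -1 / 10 < (0 : ℂ).re; norm_num
  have m1 : (1 : ℂ) ∈ HP := by show -1 / 10 < (1 : ℂ).re; norm_num
  have m2 : (1 / 2 : ℂ) ∈ HP := by show -1 / 10 < (1 / 2 : ℂ).re; norm_num
  -- l = 0
  obtain ⟨g0, hg0, f0⟩ : ∃ g : ℂ → ℂ, DifferentiableOn ℂ g HP ∧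
      ∀ z, EvN 0 w (R ^ 2 / 4) z = zer 0 z * g z := by
    obtain ⟨g, hg, hf⟩ := exists_factor isOpen_HP (differentiableOn_EvN 0 w hR) m0
      (by rw [EvN_eq 0 w hR, Ev_zero hQ, mul_zero])
    have h1 : g 1 = 0 := by
      have h := hf 1
      rw [EvN_eq 0 w hR, Ev_one hw hR hQ, mul_zero] at h
      simpa using h.symm
    obtain ⟨g', hg', hf'⟩ := exists_factor isOpen_HP hg m1 h1
    refine ⟨g', hg', fun z => ?_⟩
    rw [hf, hf']
    simp only [zer]
    ring
  -- l = 1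
  obtain ⟨g1, hg1, f1⟩ : ∃ g : ℂ → ℂ, DifferentiableOn ℂ g HP ∧
      ∀ z, EvN 1 w (R ^ 2 / 4) z = zer 1 z * g z := by
    obtain ⟨g, hg, hf⟩ := exists_factor isOpen_HP (differentiableOn_EvN 1 w hR) m2
      (by rw [EvN_eq 1 w hR, Ev_half hw hR hQ, mul_zero])
    exact ⟨g, hg, hf⟩
  have c0 : ∀ z ∈ Icc (-1 / 20 : ℝ) (11 / 4) ×ℂ Icc (-5 : ℝ) 5, g0 z ≠ 0 := fun z hz =>
    core hR (hbd 0 (by norm_num)) hg0 f0 (by
      intro x hx h
      simp only [zer] at h
      have hx01 : x = 0 ∨ x = 1 := by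
        rcases mul_eq_zero.1 h with h | h
        · exact Or.inl h
        · exact Or.inr (sub_eq_zero.1 h)
      rcases hx with ⟨h1, _, _⟩ | ⟨_, _, h1⟩
      · rcases hx01 with rfl | rfl <;> norm_num at h1
      · rcases hx01 with rfl | rfl <;> norm_num at h1) hz
  have c1 : ∀ z ∈ Icc (-1 / 20 : ℝ) (11 / 4) ×ℂ Icc (-5 : ℝ) 5, g1 z ≠ 0 := fun z hz =>
    core hR (hbd 1 (by norm_num)) hg1 f1 (by
      intro x hx h
      simp only [zer] at h
      have hx2 : x = 1 / 2 := sub_eq_zero.1 h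
      rcases hx with ⟨h1, _, _⟩ | ⟨_, _, h1⟩
      · subst hx2; norm_num at h1
      · subst hx2; norm_num at h1) hz
  have c2 : ∀ l, l = 2 ∨ l = 3 → ∀ z ∈ Icc (-1 / 20 : ℝ) (11 / 4) ×ℂ Icc (-5 : ℝ) 5,
      EvN l w (R ^ 2 / 4) z ≠ 0 := by
    intro l hl z hz
    refine core hR (hbd l (by omega)) (differentiableOn_EvN l w hR) ?_ ?_ hz
    · intro x
      rcases hl with rfl | rfl <;> simp [zer]
    · intro x _
      rcases hl with rfl | rfl <;> simp [zer]
  have hne : ∀ (l : ℕ) (lam : ℂ), Ev 13 l w R lam = 0 → EvN l w (R ^ 2 / 4) lam = 0 := by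
    intro l lam h
    rw [EvN_eq l w hR, h, mul_zero]
  have hderiv : ∀ (l : ℕ) (c : ℂ), -1 / 10 < c.re → deriv (EvN l w (R ^ 2 / 4)) c ≠ 0 →
      deriv (Ev 13 l w R) c ≠ 0 := by
    intro l c hc h h0
    apply h
    have e : EvN l w (R ^ 2 / 4) = fun lam => -(R / 2) * Ev 13 l w R lam := by
      funext lam; exact EvN_eq l w hR lam
    rw [e, deriv_const_mul_field, h0, mul_zero]
  refine ⟨?_, ?_, ?_, ?_⟩
  · intro l lam hre h0
    have hN := hne l lam h0
    have hout : 4 ≤ l ∨ 5 ≤ |lam.im| ∨ 11 / 4 ≤ lam.re → False := by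
      intro h
      have hb : BigIneq l w (R ^ 2 / 4) lam ∧ BigIneq l w (R ^ 2 / 4) (conj lam) := by
        rcases h with h | h | h
        · exact ⟨hbig l lam hre (Or.inl h), hbig l (conj lam) (by simpa using hre) (Or.inl h)⟩
        · exact ⟨hbig l lam hre (Or.inr h), hbig l (conj lam) (by simpa using hre)
            (Or.inr (by simpa using h))⟩
        · exact ⟨bigIneq_of_re hρ h, bigIneq_of_re hρ (by simpa using h)⟩
      exact EvN_ne_of_big hb.1 hb.2 hN
    have hl : l < 4 := by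
      by_contra h
      exact hout (Or.inl (not_lt.1 h))
    have him : |lam.im| < 5 := by
      by_contra h
      exact hout (Or.inr (Or.inl (not_lt.1 h)))
    have hre2 : lam.re < 11 / 4 := by
      by_contra h
      exact hout (Or.inr (Or.inr (not_lt.1 h)))
    have hmem : lam ∈ Icc (-1 / 20 : ℝ) (11 / 4) ×ℂ Icc (-5 : ℝ) 5 :=
      ⟨⟨by linarith, hre2.le⟩, ⟨(abs_lt.1 him).1.le, (abs_lt.1 him).2.le⟩⟩
    rcases l with _ | _ | l
    · rw [f0] at hN
      have := (mul_eq_zero.1 hN).resolve_right (c0 lam hmem)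
      simp only [zer] at this
      left
      refine ⟨rfl, ?_⟩
      rcases mul_eq_zero.1 this with h | h
      · exact Or.inl h
      · exact Or.inr (sub_eq_zero.1 h)
    · have hN' : EvN 1 w (R ^ 2 / 4) lam = 0 := hN
      rw [f1] at hN'
      have := (mul_eq_zero.1 hN').resolve_right (c1 lam hmem)
      simp only [zer] at this
      right
      exact ⟨rfl, sub_eq_zero.1 this⟩
    · exfalso
      exact c2 (l + 1 + 1) (by omega) lam hmem hN
  · apply hderiv 0 0 (by norm_num)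
    have hd : HasDerivAt (EvN 0 w (R ^ 2 / 4)) (-g0 0) 0 := by
      have e : EvN 0 w (R ^ 2 / 4) = fun z => z * (z - 1) * g0 z := by
        funext z; rw [f0]; simp only [zer]
      rw [e]
      have hg := ((hg0 0 m0).differentiableAt (isOpen_HP.mem_nhds m0)).hasDerivAt
      have h := (((hasDerivAt_id (0 : ℂ)).mul ((hasDerivAt_id (0 : ℂ)).sub_const 1)).mul hg)
      refine h.congr_deriv ?_
      simp
    rw [hd.deriv, neg_ne_zero]
    exact c0 0 ⟨by norm_num, by norm_num⟩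
  · apply hderiv 0 1 (by norm_num)
    have hd : HasDerivAt (EvN 0 w (R ^ 2 / 4)) (g0 1) 1 := by
      have e : EvN 0 w (R ^ 2 / 4) = fun z => z * (z - 1) * g0 z := by
        funext z; rw [f0]; simp only [zer]
      rw [e]
      have hg := ((hg0 1 m1).differentiableAt (isOpen_HP.mem_nhds m1)).hasDerivAt
      have h := (((hasDerivAt_id (1 : ℂ)).mul ((hasDerivAt_id (1 : ℂ)).sub_const 1)).mul hg)
      refine h.congr_deriv ?_
      simp
    rw [hd.deriv]
    exact c0 1 ⟨by norm_num, by norm_num⟩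
  · apply hderiv 1 (1 / 2) (by norm_num)
    have hd : HasDerivAt (EvN 1 w (R ^ 2 / 4)) (g1 (1 / 2)) (1 / 2) := by
      have e : EvN 1 w (R ^ 2 / 4) = fun z => (z - 1 / 2) * g1 z := by
        funext z; rw [f1]; simp only [zer]
      rw [e]
      have hg := ((hg1 (1 / 2) m2).differentiableAt (isOpen_HP.mem_nhds m2)).hasDerivAt
      have h := (((hasDerivAt_id (1 / 2 : ℂ)).sub_const (1 / 2)).mul hg)
      refine h.congr_deriv ?_
      simp
    rw [hd.deriv]
    exact c1 (1 / 2) ⟨by norm_num, by norm_num⟩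

end Vale.Agent.P139.H772
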