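import Vale.Agent.P139.H472.Lad

/-!
# Two dimensional disc certificates for the backward ladder

`LadA a ρ β q` : `q` satisfies the backward ladder for the parameter `a` at all levels and lies in
the half plane `β/2 ≤ Re` as soon as `β/2 ≤ Re (a + n)`.  A tree of rectangles in the `a` plane is
checked with 472's disc arithmetic; one ladder serves `a`, `a + 1`, `a + 2`.
-/

namespace Vale.Agent.P139.H772

open Vale.Agent.P139.H472 CD Complex

/-- The denominator of the ladder. -/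
noncomputable def den (a : ℂ) (ρ β : ℝ) (q : ℕ → ℂ) (n : ℕ) : ℂ :=
  a + n + (q (n + 1) - I * ρ) - β

/-- Ladder sequences, all levels. -/
structure LadA (a : ℂ) (ρ β : ℝ) (q : ℕ → ℂ) : Prop where
  re : ∀ n : ℕ, β / 2 ≤ (a + n).re → β / 2 ≤ (q n).re
  step : ∀ n : ℕ, den a ρ β q n ≠ 0 → q n = (a + n) * (q (n + 1) - I * ρ) / den a ρ β q n

/-- Trees of rectangles. -/
inductive Tr
  | leaf (N : Nat)
  | sx (a b : Tr)
  | sy (a b : Tr)

/-- Disc around a rectangle. -/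
def rdisc (x0 x1 y0 y1 : Int) : CD :=
  ⟨(x0 + x1) / 2, (y0 + y1) / 2, nbN ((x1 - x0) / 2 + 1) ((y1 - y0) / 2 + 1), true⟩

/-- `Re Q > thr`. -/
def okge (Q : CD) (thr : Int) : Bool := Q.ok && decide (thr < Q.x - Q.r)

/-- The last two steps and the three tests. -/
def fin3 (b2 : Int) (irho : CD) (thr : Int) (a0 Q2 : CD) : Bool :=
  okge Q2 thr && (okge (stepD b2 (addN a0 1) (sub Q2 irho)) thr &&
    okge (stepD b2 (addN a0 0) (sub (stepD b2 (addN a0 1) (sub Q2 irho)) irho)) thr)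

/-- Check of one cell: the discs of `q 2`, `q 1`, `q 0`, ladder started at level `k + 3`. -/
def cellB (b2 : Int) (irho : CD) (thr : Int) (k : Nat) (a0 : CD) : Bool :=
  fin3 b2 irho thr a0 (lad b2 irho a0 2 k (startQ b2 (addN a0 (2 + k))))

lemma lad_succ' (b2 : Int) (irho a0 : CD) (n : ℕ) : ∀ (k : ℕ) (Q : CD),
    lad b2 irho a0 n (k + 1) Q =
      stepD b2 (addN a0 n) (sub (lad b2 irho a0 (n + 1) k Q) irho) := by
  intro k
  induction k with
  | zero => intro Q; rfl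
  | succ k ih =>
    intro Q
    rw [lad, ih]
    conv_rhs => rw [lad]
    rw [show n + (k + 1) = n + 1 + k by ring]

lemma cellB_spec {b2 : Int} {irho : CD} {thr : Int} {k : Nat} {a0 : CD}
    (h : cellB b2 irho thr k a0 = true) :
    okge (lad b2 irho a0 2 k (startQ b2 (addN a0 (2 + k)))) thr = true ∧
    okge (lad b2 irho a0 1 (k + 1) (startQ b2 (addN a0 (1 + (k + 1))))) thr = true ∧
    okge (lad b2 irho a0 0 (k + 2) (startQ b2 (addN a0 (0 + (k + 2))))) thr = true := by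
  simp only [cellB, fin3, Bool.and_eq_true] at h
  obtain ⟨h2, h1, h0⟩ := h
  rw [lad_succ', lad_succ', lad_succ', show 1 + (k + 1) = 2 + k by ring,
    show 0 + (k + 2) = 2 + k by ring]
  exact ⟨h2, h1, h0⟩

/-- Check of a tree. -/
def chk (b2 : Int) (irho : CD) (thr : Int) : Tr → Int → Int → Int → Int → Bool
  | .leaf k, x0, x1, y0, y1 => cellB b2 irho thr k (rdisc x0 x1 y0 y1)
  | .sx s t, x0, x1, y0, y1 =>
    chk b2 irho thr s x0 ((x0 + x1) / 2) y0 y1 && chk b2 irho thr t ((x0 + x1) / 2) x1 y0 y1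
  | .sy s t, x0, x1, y0, y1 =>
    chk b2 irho thr s x0 x1 y0 ((y0 + y1) / 2) && chk b2 irho thr t x0 x1 ((y0 + y1) / 2) y1

lemma half_bd (u v : Int) (x : ℝ) (h0 : (u : ℝ) ≤ x) (h1 : x ≤ v) :
    |x - (((u + v) / 2 : Int) : ℝ)| ≤ (((v - u) / 2 + 1 : Int) : ℝ) := by
  have e1 : ((u + v) / 2 : Int) * 2 ≤ u + v := by omega
  have e2 : u + v ≤ ((u + v) / 2 : Int) * 2 + 1 := by omega
  have e3 : v - u ≤ ((v - u) / 2 : Int) * 2 + 1 := by omega
  have e1' : ((((u + v) / 2 : Int) : ℝ)) * 2 ≤ u + v := by exact_mod_cast e1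
  have e2' : (u : ℝ) + v ≤ (((u + v) / 2 : Int) : ℝ) * 2 + 1 := by exact_mod_cast e2
  have e3' : (v : ℝ) - u ≤ (((v - u) / 2 : Int) : ℝ) * 2 + 1 := by exact_mod_cast e3
  rw [abs_le]
  push_cast
  constructor <;> linarith

lemma mem_rdisc {a : ℂ} {x0 x1 y0 y1 : Int} (hx0 : (x0 : ℝ) ≤ a.re * SR) (hx1 : a.re * SR ≤ x1)
    (hy0 : (y0 : ℝ) ≤ a.im * SR) (hy1 : a.im * SR ≤ y1) : mem a (rdisc x0 x1 y0 y1) := by
  intro _
  refine le_trans ?_ (norm_le_nb _ _)
  simp only [rdisc]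
  have h1 := half_bd x0 x1 _ hx0 hx1
  have h2 := half_bd y0 y1 _ hy0 hy1
  rw [← sq_le_sq₀ (norm_nonneg _) (norm_nonneg _), ← Complex.normSq_eq_norm_sq,
    ← Complex.normSq_eq_norm_sq, Complex.normSq_mk, Complex.normSq_apply]
  simp only [Complex.sub_re, Complex.sub_im, Complex.re_mul_ofReal, Complex.im_mul_ofReal]
  have h3 := mul_self_le_mul_self (abs_nonneg _) h1
  have h4 := mul_self_le_mul_self (abs_nonneg _) h2
  rw [abs_mul_abs_self] at h3 h4
  exact add_le_add h3 h4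

lemma re_of_okge {z : ℂ} {Q : CD} {thr : Int} (hz : mem z Q) (h : okge Q thr = true) :
    (thr : ℝ) < z.re * SR := by
  simp only [okge, Bool.and_eq_true, decide_eq_true_eq] at h
  obtain ⟨h1, h2⟩ := h
  have h3 := (Complex.abs_re_le_norm _).trans (hz h1)
  rw [Complex.sub_re, Complex.re_mul_ofReal] at h3
  have h4 := (abs_le.1 h3).1
  simp only at h4
  have h5 : (thr : ℝ) < (Q.x : ℝ) - Q.r := by exact_mod_cast h2
  linarith

/-- First step and its denominator. -/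
lemma den_start {b2 : Int} {β : ℝ} (hβ : β * SR = (b2 : ℝ)) {A0 D0 : ℂ} {A : CD}
    (hA : mem A0 A) (hD : β / 2 ≤ D0.re) (hok : (startQ b2 A).ok = true) :
    A0 + D0 - β ≠ 0 := by
  obtain ⟨hH, hAo⟩ := startQ_ok hok
  have h1 := hA hAo
  have h2 := (Complex.abs_re_le_norm _).trans h1
  rw [Complex.sub_re, Complex.re_mul_ofReal] at h2
  have h3 := (abs_le.1 h2).1
  simp only at h3
  intro h0
  have h4 := congrArg Complex.re h0
  rw [Complex.sub_re, Complex.add_re, Complex.ofReal_re, Complex.zero_re] at h4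
  have hHR : (0 : ℝ) < ((2 * (A.x - A.r) - b2 : Int) : ℝ) := by
    exact_mod_cast hH
  push_cast at hHR
  rw [← hβ] at hHR
  have hS := SR_pos
  have h5 : 0 < (2 * A0.re - β) * SR := by nlinarith
  have h6 : 0 < 2 * A0.re - β := by
    by_contra hc
    push Not at hc
    nlinarith
  linarith

lemma start_half {b2 : Int} {β : ℝ} (hβ : β * SR = (b2 : ℝ)) {A0 : ℂ} {A : CD}
    (hA : mem A0 A) (hok : (startQ b2 A).ok = true) : β / 2 ≤ A0.re := by
  obtain ⟨hH, hAo⟩ := startQ_ok hok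
  have h1 := hA hAo
  have h2 := (Complex.abs_re_le_norm _).trans h1
  rw [Complex.sub_re, Complex.re_mul_ofReal] at h2
  have h3 := (abs_le.1 h2).1
  simp only at h3
  have hHR : (0 : ℝ) < ((2 * (A.x - A.r) - b2 : Int) : ℝ) := by
    exact_mod_cast hH
  push_cast at hHR
  rw [← hβ] at hHR
  have hS := SR_pos
  have h5 : 0 < (2 * A0.re - β) * SR := by nlinarith
  have h6 : 0 < 2 * A0.re - β := by
    by_contra hc
    push Not at hc
    nlinarith
  linarith

section

variable {b2 : Int} {β ρ : ℝ} {a : ℂ} {q : ℕ → ℂ} {irho a0 : CD}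

/-- Ladder in discs, shifted by `j`. -/
lemma mem_ladA (hβ : β * SR = (b2 : ℝ)) (hq : LadA a ρ β q) (hρ : mem (I * ρ) irho) (j : ℕ)
    (ha : mem (a - j) a0) (n : ℕ) : ∀ (k : ℕ) (Q : CD), mem (q (n + k)) Q →
      ((lad b2 irho a0 (n + j) k Q).ok = true → Q.ok = true) ∧
      mem (q n) (lad b2 irho a0 (n + j) k Q) ∧
      ((lad b2 irho a0 (n + j) k Q).ok = true → ∀ i, n ≤ i → i < n + k → den a ρ β q i ≠ 0) := by
  intro k
  induction k with
  | zero =>
    intro Q h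
    refine ⟨fun h1 => h1, by simpa [lad] using h, fun _ i h1 h2 => by omega⟩
  | succ k ih =>
    intro Q h
    rw [lad]
    have hD : mem (q (n + (k + 1)) - I * ρ) (sub Q irho) := mem_sub h hρ
    have hA : mem (a + ((n + k : ℕ) : ℂ)) (addN a0 (n + j + k)) := by
      have := mem_addN (n + j + k) ha
      have e : a - j + ((n + j + k : ℕ) : ℂ) = a + ((n + k : ℕ) : ℂ) := by push_cast; ring
      rwa [e] at this
    have hmem : mem (q (n + k)) (stepD b2 (addN a0 (n + j + k)) (sub Q irho)) := by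
      intro hok
      have hden := stepD_den hβ hA hD hok
      have hd : den a ρ β q (n + k) ≠ 0 := hden
      rw [hq.step (n + k) hd]
      exact mem_stepD hβ hA hD hok
    obtain ⟨h1, h2, h3⟩ := ih _ hmem
    refine ⟨fun hok => ?_, h2, fun hok i hi1 hi2 => ?_⟩
    · have := h1 hok
      simp only [stepD, sub, Bool.and_eq_true] at this
      tauto
    · rcases Nat.lt_or_ge i (n + k) with h4 | h4
      · exact h3 hok i hi1 h4
      · have e : i = n + k := by omega
        subst e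
        exact stepD_den hβ hA hD (h1 hok)

/-- Full ladder from the half plane. -/
lemma mem_ladderA (hβ : β * SR = (b2 : ℝ)) (hq : LadA a ρ β q) (hρ : mem (I * ρ) irho) (j : ℕ)
    (ha : mem (a - j) a0) (n k : ℕ) :
      mem (q n) (lad b2 irho a0 (n + j) k (startQ b2 (addN a0 (n + j + k)))) ∧
      ((lad b2 irho a0 (n + j) k (startQ b2 (addN a0 (n + j + k)))).ok = true →
        ∀ i, n ≤ i → i ≤ n + k → den a ρ β q i ≠ 0) := by
  have hA : mem (a + ((n + k : ℕ) : ℂ)) (addN a0 (n + j + k)) := by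
    have := mem_addN (n + j + k) ha
    have e : a - j + ((n + j + k : ℕ) : ℂ) = a + ((n + k : ℕ) : ℂ) := by push_cast; ring
    rwa [e] at this
  have hre : (startQ b2 (addN a0 (n + j + k))).ok = true →
      β / 2 ≤ (q (n + k + 1) - I * ρ).re := by
    intro hok
    have h1 := start_half hβ hA hok
    have h2 := hq.re (n + k + 1) (by
      have : (a + ((n + k + 1 : ℕ) : ℂ)).re = (a + ((n + k : ℕ) : ℂ)).re + 1 := by
        simp; ring
      exact le_trans (by linarith) this.ge)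
    simpa using h2
  have hmem : mem (q (n + k)) (startQ b2 (addN a0 (n + j + k))) := by
    intro hok
    have hd : den a ρ β q (n + k) ≠ 0 := den_start hβ hA (hre hok) hok
    rw [hq.step (n + k) hd]
    exact mem_startQ hβ hA (hre hok) hok
  obtain ⟨h1, h2, h3⟩ := mem_ladA hβ hq hρ j ha n k _ hmem
  refine ⟨h2, fun hok i hi1 hi2 => ?_⟩
  rcases Nat.lt_or_ge i (n + k) with h4 | h4
  · exact h3 hok i hi1 h4
  · have e : i = n + k := by omega
    subst e
    exact den_start hβ hA (hre (h1 hok)) (h1 hok)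

/-- Soundness for one cell. -/
lemma cell_sound {thr : Int} (hβ : β * SR = (b2 : ℝ)) (hq : LadA a ρ β q)
    (hρ : mem (I * ρ) irho) {k : ℕ} (h : cellB b2 irho thr k a0 = true) {j : ℕ} (hj : j ≤ 2)
    (ha : mem (a - j) a0) :
    (∀ i, i ≤ 2 - j + k → den a ρ β q i ≠ 0) ∧ (thr : ℝ) < (q 0).re * SR := by
  obtain ⟨h2, h1, h0⟩ := cellB_spec h
  have aux : ∀ {Q : CD}, okge Q thr = true → Q.ok = true := by
    intro Q hQ
    simp only [okge, Bool.and_eq_true] at hQ
    exact hQ.1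
  interval_cases j
  · obtain ⟨m, d⟩ := mem_ladderA hβ hq hρ 0 ha 0 (k + 2)
    exact ⟨fun i hi => d (aux h0) i (Nat.zero_le _) (by omega), re_of_okge m h0⟩
  · obtain ⟨m, d⟩ := mem_ladderA hβ hq hρ 1 ha 0 (k + 1)
    exact ⟨fun i hi => d (aux h1) i (Nat.zero_le _) (by omega), re_of_okge m h1⟩
  · obtain ⟨m, d⟩ := mem_ladderA hβ hq hρ 2 ha 0 k
    exact ⟨fun i hi => d (aux h2) i (Nat.zero_le _) (by omega), re_of_okge m h2⟩

/-- Soundness for a tree. -/
theorem chk_sound {thr : Int} (hβ : β * SR = (b2 : ℝ)) (hq : LadA a ρ β q)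
    (hρ : mem (I * ρ) irho) {j : ℕ} (hj : j ≤ 2) :
    ∀ (T : Tr) (x0 x1 y0 y1 : Int), chk b2 irho thr T x0 x1 y0 y1 = true →
      (x0 : ℝ) ≤ (a.re - j) * SR → (a.re - j) * SR ≤ x1 → (y0 : ℝ) ≤ a.im * SR →
      a.im * SR ≤ y1 →
      (∀ i, i ≤ 2 - j → den a ρ β q i ≠ 0) ∧ (thr : ℝ) < (q 0).re * SR := by
  intro T
  induction T with
  | leaf k =>
    intro x0 x1 y0 y1 h hx0 hx1 hy0 hy1
    have ha : mem (a - j) (rdisc x0 x1 y0 y1) := by
      apply mem_rdisc <;> simpa using by assumption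
    obtain ⟨h1, h2⟩ := cell_sound hβ hq hρ h hj ha
    exact ⟨fun i hi => h1 i (by omega), h2⟩
  | sx s t ihs iht =>
    intro x0 x1 y0 y1 h hx0 hx1 hy0 hy1
    simp only [chk, Bool.and_eq_true] at h
    rcases le_total ((a.re - j) * SR) (((x0 + x1) / 2 : Int) : ℝ) with hc | hc
    · exact ihs _ _ _ _ h.1 hx0 hc hy0 hy1
    · exact iht _ _ _ _ h.2 hc hx1 hy0 hy1
  | sy s t ihs iht =>
    intro x0 x1 y0 y1 h hx0 hx1 hy0 hy1
    simp only [chk, Bool.and_eq_true] at h
    rcases le_total (a.im * SR) (((y0 + y1) / 2 : Int) : ℝ) with hc | hc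
    · exact ihs _ _ _ _ h.1 hx0 hx1 hy0 hc
    · exact iht _ _ _ _ h.2 hx0 hx1 hc hy1

lemma den_ne_of_re (hq : LadA a ρ β q) {i : ℕ} (hi : β / 2 < (a + i).re) :
    den a ρ β q i ≠ 0 := by
  intro h0
  have h1 := hq.re (i + 1) (by
    have e : (a + ((i + 1 : ℕ) : ℂ)).re = (a + (i : ℂ)).re + 1 := by
      simp; ring
    exact le_trans (by linarith) e.ge)
  have h2 := congrArg Complex.re h0
  simp only [den, Complex.sub_re, Complex.add_re, Complex.mul_re, Complex.I_re, Complex.I_im,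
    Complex.ofReal_re, Complex.ofReal_im, Complex.zero_re] at h2 hi
  linarith

/-- The disc of `I ρ` for `2.66394 ≤ ρ ≤ 2.66399`. -/
def irho0 : CD := ⟨0, 749839486333002, 7040000000, true⟩

lemma mem_irho0 {ρ : ℝ} (h1 : 2.66394 ≤ ρ) (h2 : ρ ≤ 2.66399) : mem (I * ρ) irho0 := by
  intro _
  have e : I * ρ * (SR : ℂ) - (⟨((irho0.x : Int) : ℝ), ((irho0.y : Int) : ℝ)⟩ : ℂ) =
      ((ρ * SR - 749839486333002 : ℝ) : ℂ) * I := by
    apply Complex.ext
    · simp [irho0]
    · simp [irho0]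
  rw [e, norm_mul, Complex.norm_I, mul_one, Complex.norm_real, Real.norm_eq_abs, abs_le]
  simp only [irho0, SR]
  constructor <;> norm_num <;> nlinarith

/-- Soundness for a strip of width three: `a` with `β/2 - 11/4 ≤ Re a ≤ β/2 + 1/4`. -/
theorem box_sound {thr : Int} (hβ : β * SR = (b2 : ℝ)) (hq : LadA a ρ β q)
    (hρ1 : 2.66394 ≤ ρ) (hρ2 : ρ ≤ 2.66399) {T : Tr} {x0 x1 y0 y1 : Int}
    (h : chk b2 irho0 thr T x0 x1 y0 y1 = true) (hx0 : (x0 : ℝ) = (β / 2 - 11 / 4) * SR)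
    (hx1 : (x1 : ℝ) = (β / 2 - 7 / 4) * SR) (h1 : β / 2 - 11 / 4 ≤ a.re)
    (h2 : a.re ≤ β / 2 + 1 / 4) (h3 : (y0 : ℝ) ≤ a.im * SR) (h4 : a.im * SR ≤ y1) :
    (∀ i, den a ρ β q i ≠ 0) ∧ (thr : ℝ) < (q 0).re * SR := by
  have hS := SR_pos
  have hρ := mem_irho0 hρ1 hρ2
  have key : ∀ j : ℕ, j ≤ 2 → β / 2 - 11 / 4 ≤ a.re - j → a.re - j ≤ β / 2 - 7 / 4 →
      (∀ i, den a ρ β q i ≠ 0) ∧ (thr : ℝ) < (q 0).re * SR := by
    intro j hj e1 e2
    obtain ⟨d1, d2⟩ := chk_sound hβ hq hρ hj T x0 x1 y0 y1 h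
      (by rw [hx0]; exact mul_le_mul_of_nonneg_right e1 hS.le)
      (by rw [hx1]; exact mul_le_mul_of_nonneg_right e2 hS.le) h3 h4
    refine ⟨fun i => ?_, d2⟩
    rcases Nat.lt_or_ge (2 - j) i with hi | hi
    · apply den_ne_of_re hq
      have h5 : 3 ≤ i + j := by omega
      have h6 : (3 : ℝ) ≤ i + j := by exact_mod_cast h5
      rw [Complex.add_re, Complex.natCast_re]
      linarith
    · exact d1 i hi
  rcases le_total a.re (β / 2 - 7 / 4) with c1 | c1
  · exact key 0 (by norm_num) (by simpa using h1) (by simpa using c1)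
  rcases le_total a.re (β / 2 - 3 / 4) with c2 | c2
  · exact key 1 (by norm_num) (by push_cast; linarith) (by push_cast; linarith)
  · exact key 2 (by norm_num) (by push_cast; linarith) (by push_cast; linarith)

end

end Vale.Agent.P139.H772
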