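import Vale.Agent.P139.H772.Box1

/-!
# Kernel checked boxes for the flux positivity, `l = 0, 4, 5, 6, 7, 8, 9`
-/

namespace Vale.Agent.P139.H772

open Vale.Agent.P139.H472

set_option maxRecDepth 20000


/-- tree for `l = 0` -/
def tr0 : Tr := .sy (.sx (.sy (.sx (.sy (.leaf 14) (.leaf 14)) (.sy (.leaf 12) (.leaf 12))) (.sx (.sy (.leaf 14) (.leaf 14)) (.sy (.leaf 13) (.leaf 13)))) (.sy (.sx (.sy (.leaf 11) (.leaf 12)) (.leaf 15)) (.sx (.leaf 17) (.leaf 16)))) (.sx (.sy (.sx (.sy (.leaf 14) (.leaf 15)) (.sy (.leaf 14) (.leaf 14))) (.sx (.sy (.leaf 15) (.leaf 16)) (.sy (.leaf 15) (.leaf 15)))) (.sy (.sx (.leaf 18) (.leaf 17)) (.sx (.leaf 19) (.leaf 18))))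

theorem chk0 : chk (1548112371908608) irho0 (0) tr0 (0) (281474976710656) (1196268651020288) (1688849860263936) = true := by
  decide +kernel

/-- tree for `l = 4` -/
def tr4 : Tr := .sy (.sy (.sy (.leaf 14) (.sy (.leaf 11) (.leaf 11))) (.sy (.sy (.sx (.leaf 9) (.leaf 8)) (.sx (.leaf 9) (.leaf 8))) (.sy (.sx (.sy (.leaf 8) (.leaf 9)) (.leaf 8)) (.sx (.sy (.sx (.leaf 7) (.leaf 7)) (.sx (.leaf 8) (.leaf 7))) (.leaf 9))))) (.sy (.sy (.sy (.sx (.sy (.sx (.leaf 8) (.leaf 7)) (.sx (.leaf 9) (.leaf 7))) (.sy (.leaf 7) (.leaf 7))) (.sx (.sy (.sx (.sy (.leaf 7) (.leaf 7)) (.leaf 7)) (.sx (.sy (.leaf 7) (.leaf 7)) (.leaf 7))) (.sy (.leaf 8) (.leaf 9)))) (.sy (.sx (.sy (.sx (.sy (.leaf 7) (.leaf 7)) (.leaf 7)) (.sx (.sy (.leaf 7) (.leaf 7)) (.leaf 7))) (.sy (.sx (.leaf 6) (.leaf 5)) (.sx (.leaf 6) (.leaf 5)))) (.sx (.sy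 (.sx (.sy (.leaf 8) (.leaf 8)) (.leaf 7)) (.sx (.sy (.leaf 9) (.sx (.leaf 6) (.leaf 6))) (.leaf 9))) (.sy (.sx (.leaf 6) (.leaf 5)) (.sx (.leaf 6) (.leaf 5)))))) (.sy (.sy (.sx (.sy (.sx (.sy (.sx (.leaf 6) (.leaf 6)) (.sx (.leaf 6) (.leaf 6))) (.sy (.leaf 6) (.leaf 6))) (.sx (.sy (.sx (.leaf 6) (.leaf 5)) (.sx (.leaf 6) (.leaf 5))) (.sy (.leaf 6) (.leaf 6)))) (.sy (.sx (.leaf 6) (.leaf 5)) (.sx (.leaf 6) (.leaf 5)))) (.sx (.sy (.sx (.sy (.sx (.leaf 6) (.leaf 5)) (.sx (.leaf 6) (.leaf 5))) (.sy (.leaf 6) (.leaf 6))) (.sx (.sy (.sx (.leaf 6) (.leaf 5)) (.sx (.leaf 6) (.leaf 5))) (.sy (.leaf 6) (.leaf 6)))) (.sy (.sx (.leaf 5) (.leaf 5)) (.sx (.leaf 5) (.leaf 5))))) (.sy (.sx (.sy (.sx (.sy (.sx (.leaf 6) (.leaf 5)) (.sx (.leaf 6) (.leaf 5))) (.sy (.leaf 6) (.leaf 6))) (.sx (.sy (.sx (.leaf 6) (.leaf 5)) (.sx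 (.leaf 6) (.leaf 5))) (.sy (.leaf 6) (.leaf 6)))) (.sy (.sx (.leaf 5) (.leaf 5)) (.sx (.leaf 5) (.leaf 4)))) (.sx (.sy (.sx (.sy (.sx (.leaf 6) (.leaf 5)) (.sx (.leaf 6) (.leaf 5))) (.sy (.leaf 6) (.leaf 6))) (.sx (.sy (.sx (.leaf 6) (.leaf 5)) (.sx (.leaf 6) (.leaf 5))) (.sy (.leaf 6) (.leaf 6)))) (.sy (.sx (.leaf 5) (.leaf 4)) (.sx (.leaf 5) (.leaf 4)))))))

theorem chk4 : chk (2674012278751232) irho0 (0) tr4 (562949953421312) (844424930131968) (-2251799813685248) (0) = true := by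
  decide +kernel

/-- tree for `l = 5` -/
def tr5 : Tr := .sy (.sy (.sy (.leaf 18) (.sy (.leaf 12) (.leaf 12))) (.sy (.sy (.leaf 13) (.sx (.leaf 10) (.leaf 9))) (.sy (.sx (.leaf 12) (.leaf 9)) (.sx (.sy (.leaf 9) (.leaf 9)) (.leaf 9))))) (.sy (.sy (.sy (.sx (.sy (.leaf 10) (.sx (.leaf 8) (.leaf 7))) (.leaf 11)) (.sx (.sy (.sx (.leaf 8) (.leaf 7)) (.sx (.leaf 8) (.leaf 7))) (.sy (.leaf 7) (.leaf 7)))) (.sy (.sx (.sy (.sx (.leaf 8) (.leaf 7)) (.sx (.leaf 8) (.leaf 7))) (.sy (.leaf 7) (.leaf 7))) (.sx (.sy (.sx (.leaf 8) (.leaf 7)) (.sx (.sy (.leaf 7) (.leaf 7)) (.leaf 7))) (.sy (.leaf 7) (.leaf 7))))) (.sy (.sy (.sx (.sy (.sx (.sy (.leaf 7) (.leaf 6)) (.leaf 7)) (.sx (.sy (.leaf 6) (.leaf 6)) (.leaf 7))) (.sy (.leaf 7) (.sx (.leaf 6) (.leaf 5)))) (.sx (.sy (.sx (.sy (.leaf 6) (.leaf 6)) (.leaf 7)) (.sx (.sy (.leaf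 6) (.leaf 6)) (.leaf 7))) (.sy (.sx (.leaf 6) (.leaf 5)) (.sx (.leaf 5) (.leaf 5))))) (.sy (.sx (.sy (.sx (.sy (.leaf 6) (.leaf 7)) (.sy (.leaf 5) (.leaf 5))) (.sx (.sy (.leaf 7) (.leaf 7)) (.sy (.leaf 5) (.leaf 5)))) (.sy (.sx (.leaf 5) (.leaf 5)) (.sx (.leaf 5) (.leaf 5)))) (.sx (.sy (.sx (.sy (.leaf 8) (.sx (.leaf 6) (.leaf 5))) (.sy (.leaf 5) (.leaf 5))) (.sx (.sy (.sx (.leaf 6) (.leaf 5)) (.sx (.leaf 6) (.leaf 5))) (.sy (.leaf 5) (.leaf 5)))) (.sy (.sx (.leaf 5) (.leaf 5)) (.sx (.leaf 5) (.leaf 5)))))))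

theorem chk5 : chk (2955487255461888) irho0 (0) tr5 (703687441776640) (985162418487296) (-2814749767106560) (0) = true := by
  decide +kernel

/-- tree for `l = 6` -/
def tr6 : Tr := .sy (.sy (.sy (.sy (.leaf 15) (.leaf 15)) (.sy (.leaf 14) (.leaf 14))) (.sy (.sy (.leaf 14) (.sx (.leaf 12) (.leaf 10))) (.sy (.sx (.leaf 12) (.leaf 10)) (.sx (.sy (.leaf 10) (.leaf 9)) (.leaf 10))))) (.sy (.sy (.sy (.sx (.sy (.leaf 9) (.leaf 9)) (.leaf 10)) (.sx (.sy (.leaf 9) (.leaf 9)) (.sy (.leaf 8) (.leaf 8)))) (.sy (.sx (.sy (.leaf 10) (.sx (.leaf 8) (.leaf 7))) (.sy (.leaf 7) (.leaf 7))) (.sx (.sy (.sx (.leaf 8) (.leaf 7)) (.sx (.leaf 8) (.leaf 7))) (.sy (.leaf 7) (.leaf 7))))) (.sy (.sy (.sx (.sy (.sx (.leaf 8) (.leaf 7)) (.sx (.leaf 8) (.leaf 7))) (.sy (.leaf 7) (.leaf 7))) (.sx (.sy (.sx (.sy (.leaf 6) (.leaf 6)) (.leaf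 6)) (.sx (.sy (.leaf 6) (.leaf 6)) (.leaf 6))) (.sy (.leaf 7) (.leaf 6)))) (.sy (.sx (.sy (.sx (.sy (.leaf 6) (.leaf 6)) (.leaf 6)) (.sx (.sy (.leaf 6) (.leaf 6)) (.leaf 6))) (.sy (.leaf 6) (.leaf 6))) (.sx (.sy (.sx (.sy (.leaf 6) (.leaf 6)) (.leaf 6)) (.sx (.sy (.leaf 6) (.leaf 6)) (.leaf 6))) (.sy (.leaf 6) (.leaf 6))))))

theorem chk6 : chk (3236962232172544) irho0 (0) tr6 (844424930131968) (1125899906842624) (-3377699720527872) (0) = true := by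
  decide +kernel

/-- tree for `l = 7` -/
def tr7 : Tr := .sy (.sy (.sy (.sy (.leaf 18) (.leaf 17)) (.sy (.leaf 17) (.leaf 16))) (.sy (.sy (.leaf 16) (.leaf 16)) (.sy (.sx (.leaf 13) (.leaf 12)) (.sx (.leaf 18) (.leaf 12))))) (.sy (.sy (.sy (.sx (.sy (.leaf 10) (.leaf 10)) (.leaf 11)) (.sx (.sy (.leaf 10) (.leaf 9)) (.leaf 12))) (.sy (.sx (.sy (.leaf 9) (.leaf 9)) (.sy (.leaf 8) (.leaf 8))) (.sx (.sy (.leaf 9) (.leaf 9)) (.sy (.leaf 7) (.leaf 7))))) (.sy (.sy (.sx (.sy (.sx (.leaf 8) (.leaf 7)) (.sx (.leaf 8) (.leaf 7))) (.sy (.leaf 7) (.leaf 7))) (.sx (.sy (.sx (.leaf 8) (.leaf 7)) (.sx (.leaf 8) (.leaf 7))) (.sy (.leaf 7) (.leaf 6)))) (.sy (.sx (.sy (.sx (.sy (.leaf 6) (.leaf 6)) (.leaf 6)) (.sx (.sy (.leaf 6) (.leaf 6)) (.leaf 6))) (.sy (.leaf 6) (.leaf 6))) (.sx (.sy (.sx (.sy (.leaf 6) (.leaf 6)) (.leaf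 6)) (.sx (.sy (.leaf 6) (.leaf 6)) (.leaf 6))) (.sy (.leaf 6) (.leaf 6))))))

theorem chk7 : chk (3518437208883200) irho0 (0) tr7 (985162418487296) (1266637395197952) (-4011018418126848) (0) = true := by
  decide +kernel

/-- tree for `l = 8` -/
def tr8 : Tr := .sy (.sy (.sy (.sy (.sy (.leaf 18) (.leaf 18)) (.sy (.leaf 18) (.leaf 17))) (.sy (.sy (.leaf 17) (.leaf 17)) (.sy (.leaf 16) (.leaf 16)))) (.sy (.sy (.sy (.leaf 16) (.leaf 16)) (.sy (.leaf 16) (.leaf 16))) (.sy (.sy (.leaf 16) (.leaf 16)) (.sy (.sx (.leaf 12) (.leaf 11)) (.sx (.leaf 11) (.leaf 10)))))) (.sy (.sy (.sy (.sy (.sx (.leaf 11) (.leaf 10)) (.sx (.leaf 11) (.leaf 10))) (.sy (.sx (.leaf 11) (.leaf 9)) (.sx (.leaf 10) (.leaf 9)))) (.sy (.sy (.sx (.leaf 10) (.leaf 9)) (.sx (.leaf 10) (.leaf 8))) (.sy (.sx (.leaf 10) (.leaf 8)) (.sx (.leaf 11) (.leaf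 8))))) (.sy (.sy (.sy (.sx (.sy (.leaf 8) (.leaf 8)) (.leaf 8)) (.sx (.sy (.leaf 8) (.leaf 8)) (.leaf 7))) (.sy (.sx (.sy (.leaf 8) (.leaf 8)) (.leaf 7)) (.sx (.sy (.leaf 8) (.leaf 8)) (.leaf 7)))) (.sy (.sy (.sx (.sy (.leaf 8) (.leaf 8)) (.leaf 7)) (.sx (.sy (.sx (.leaf 6) (.leaf 6)) (.sx (.leaf 6) (.leaf 6))) (.leaf 7))) (.sy (.sx (.sy (.sx (.leaf 6) (.leaf 6)) (.sx (.leaf 6) (.leaf 6))) (.leaf 7)) (.sx (.sy (.sx (.leaf 6) (.leaf 6)) (.sx (.leaf 6) (.leaf 6))) (.leaf 6))))))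

theorem chk8 : chk (3799912185593856) irho0 (1337006139375616) tr8 (1125899906842624) (1407374883553280) (-4644337115725824) (0) = true := by
  decide +kernel

/-- tree for `l = 9` -/
def tr9 : Tr := .sy (.sy (.sy (.sy (.sy (.leaf 19) (.leaf 18)) (.sy (.leaf 18) (.leaf 18))) (.sy (.sy (.leaf 17) (.leaf 17)) (.sy (.leaf 17) (.leaf 16)))) (.sy (.sy (.sy (.leaf 16) (.leaf 16)) (.sy (.leaf 16) (.leaf 15))) (.sy (.sy (.leaf 15) (.leaf 15)) (.sy (.leaf 15) (.leaf 16))))) (.sy (.sy (.sy (.sy (.sx (.leaf 11) (.leaf 10)) (.sx (.leaf 11) (.leaf 10))) (.sy (.sx (.leaf 10) (.leaf 9)) (.sx (.leaf 10) (.leaf 9)))) (.sy (.sy (.sx (.leaf 10) (.leaf 9)) (.sx (.leaf 10) (.leaf 8))) (.sy (.sx (.leaf 9) (.leaf 8)) (.sx (.leaf 9) (.leaf 8))))) (.sy (.sy (.sy (.sx (.leaf 9) (.leaf 7)) (.sx (.leaf 9) (.leaf 7))) (.sy (.sx (.sy (.leaf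 8) (.leaf 7)) (.leaf 7)) (.sx (.sy (.leaf 7) (.leaf 7)) (.leaf 7)))) (.sy (.sy (.sx (.sy (.leaf 7) (.leaf 7)) (.leaf 7)) (.sx (.sy (.leaf 7) (.leaf 7)) (.leaf 6))) (.sy (.sx (.sy (.leaf 7) (.leaf 7)) (.leaf 6)) (.sx (.sy (.leaf 7) (.leaf 7)) (.leaf 6))))))

theorem chk9 : chk (4081387162304512) irho0 (1477743627730944) tr9 (1266637395197952) (1548112371908608) (-4644337115725824) (0) = true := by
  decide +kernel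

end Vale.Agent.P139.H772
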