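import Vale.Agent.P139.H772.Box2
import Vale.Agent.P139.H772.EW6

/-!
# Flux positivity on the compact boxes

`exists_ladA` : the actual ratios give a `LadA` sequence; `fl_box*` : `Fl` on the boxes.
-/

noncomputable section

open MeasureTheory Set Filter Topology Complex ComplexConjugate

namespace Vale.Agent.P139.H772

open Vale.Agent.P139.KU (S aE bE F0 F0' aE_re)
open Vale.Agent.P139.H472 (SR SR_pos SZ_cast)
open Vale.Agent.P139.H312 (Fl)

/-! ### Statements for `LadA` -/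

section

variable {a : ℂ} {ρ : ℝ} {q : ℕ → ℂ}

lemma lt_of_scaled {c x : ℝ} (h : c * SR < x * SR) : c < x :=
  lt_of_mul_lt_mul_right h SR_pos.le

/-- `l = 0`. -/
theorem box0 (hq : LadA a ρ (11 / 2) q) (h1 : 2.66394 ≤ ρ) (h2 : ρ ≤ 2.66399)
    (h3 : 0 ≤ a.re) (h4 : a.re ≤ 3) (h5 : 17 / 4 ≤ a.im) (h6 : a.im ≤ 6) :
    (∀ i, den a ρ (11 / 2) q i ≠ 0) ∧ 0 < (q 0).re := by
  have hS := SR_pos
  obtain ⟨d, e⟩ := box_sound (β := 11 / 2) (by simp only [SR]; norm_num) hq h1 h2 chk0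
    (by simp only [SR]; norm_num) (by simp only [SR]; norm_num) (by linarith) (by linarith)
    (by simp only [SR]; push_cast; linarith) (by simp only [SR]; push_cast; linarith)
  exact ⟨d, lt_of_scaled (lt_of_eq_of_lt (by simp only [SR]; norm_num) e)⟩

/-- `l = 4`. -/
theorem box4 (hq : LadA a ρ (19 / 2) q) (h1 : 2.66394 ≤ ρ) (h2 : ρ ≤ 2.66399)
    (h3 : 2 ≤ a.re) (h4 : a.re ≤ 5) (h5 : -8 ≤ a.im) (h6 : a.im ≤ 0) :
    (∀ i, den a ρ (19 / 2) q i ≠ 0) ∧ 0 < (q 0).re := by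
  have hS := SR_pos
  obtain ⟨d, e⟩ := box_sound (β := 19 / 2) (by simp only [SR]; norm_num) hq h1 h2 chk4
    (by simp only [SR]; norm_num) (by simp only [SR]; norm_num) (by linarith) (by linarith)
    (by simp only [SR]; push_cast; linarith) (by simp only [SR]; push_cast; linarith)
  exact ⟨d, lt_of_scaled (lt_of_eq_of_lt (by simp only [SR]; norm_num) e)⟩

/-- `l = 5`. -/
theorem box5 (hq : LadA a ρ (21 / 2) q) (h1 : 2.66394 ≤ ρ) (h2 : ρ ≤ 2.66399)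
    (h3 : 5 / 2 ≤ a.re) (h4 : a.re ≤ 11 / 2) (h5 : -10 ≤ a.im) (h6 : a.im ≤ 0) :
    (∀ i, den a ρ (21 / 2) q i ≠ 0) ∧ 0 < (q 0).re := by
  have hS := SR_pos
  obtain ⟨d, e⟩ := box_sound (β := 21 / 2) (by simp only [SR]; norm_num) hq h1 h2 chk5
    (by simp only [SR]; norm_num) (by simp only [SR]; norm_num) (by linarith) (by linarith)
    (by simp only [SR]; push_cast; linarith) (by simp only [SR]; push_cast; linarith)
  exact ⟨d, lt_of_scaled (lt_of_eq_of_lt (by simp only [SR]; norm_num) e)⟩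

/-- `l = 6`. -/
theorem box6 (hq : LadA a ρ (23 / 2) q) (h1 : 2.66394 ≤ ρ) (h2 : ρ ≤ 2.66399)
    (h3 : 3 ≤ a.re) (h4 : a.re ≤ 6) (h5 : -12 ≤ a.im) (h6 : a.im ≤ 0) :
    (∀ i, den a ρ (23 / 2) q i ≠ 0) ∧ 0 < (q 0).re := by
  have hS := SR_pos
  obtain ⟨d, e⟩ := box_sound (β := 23 / 2) (by simp only [SR]; norm_num) hq h1 h2 chk6
    (by simp only [SR]; norm_num) (by simp only [SR]; norm_num) (by linarith) (by linarith)
    (by simp only [SR]; push_cast; linarith) (by simp only [SR]; push_cast; linarith)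
  exact ⟨d, lt_of_scaled (lt_of_eq_of_lt (by simp only [SR]; norm_num) e)⟩

/-- `l = 7`. -/
theorem box7 (hq : LadA a ρ (25 / 2) q) (h1 : 2.66394 ≤ ρ) (h2 : ρ ≤ 2.66399)
    (h3 : 7 / 2 ≤ a.re) (h4 : a.re ≤ 13 / 2) (h5 : -57 / 4 ≤ a.im) (h6 : a.im ≤ 0) :
    (∀ i, den a ρ (25 / 2) q i ≠ 0) ∧ 0 < (q 0).re := by
  have hS := SR_pos
  obtain ⟨d, e⟩ := box_sound (β := 25 / 2) (by simp only [SR]; norm_num) hq h1 h2 chk7
    (by simp only [SR]; norm_num) (by simp only [SR]; norm_num) (by linarith) (by linarith)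
    (by simp only [SR]; push_cast; linarith) (by simp only [SR]; push_cast; linarith)
  exact ⟨d, lt_of_scaled (lt_of_eq_of_lt (by simp only [SR]; norm_num) e)⟩

/-- `l = 8`. -/
theorem box8 (hq : LadA a ρ (27 / 2) q) (h1 : 2.66394 ≤ ρ) (h2 : ρ ≤ 2.66399)
    (h3 : 4 ≤ a.re) (h4 : a.re ≤ 7) (h5 : -33 / 2 ≤ a.im) (h6 : a.im ≤ 0) :
    (∀ i, den a ρ (27 / 2) q i ≠ 0) ∧ 19 / 4 < (q 0).re := by
  have hS := SR_pos
  obtain ⟨d, e⟩ := box_sound (β := 27 / 2) (by simp only [SR]; norm_num) hq h1 h2 chk8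
    (by simp only [SR]; norm_num) (by simp only [SR]; norm_num) (by linarith) (by linarith)
    (by simp only [SR]; push_cast; linarith) (by simp only [SR]; push_cast; linarith)
  exact ⟨d, lt_of_scaled (lt_of_eq_of_lt (by simp only [SR]; norm_num) e)⟩

/-- `l = 9`. -/
theorem box9 (hq : LadA a ρ (29 / 2) q) (h1 : 2.66394 ≤ ρ) (h2 : ρ ≤ 2.66399)
    (h3 : 9 / 2 ≤ a.re) (h4 : a.re ≤ 15 / 2) (h5 : -33 / 2 ≤ a.im) (h6 : a.im ≤ 0) :
    (∀ i, den a ρ (29 / 2) q i ≠ 0) ∧ 21 / 4 < (q 0).re := by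
  have hS := SR_pos
  obtain ⟨d, e⟩ := box_sound (β := 29 / 2) (by simp only [SR]; norm_num) hq h1 h2 chk9
    (by simp only [SR]; norm_num) (by simp only [SR]; norm_num) (by linarith) (by linarith)
    (by simp only [SR]; push_cast; linarith) (by simp only [SR]; push_cast; linarith)
  exact ⟨d, lt_of_scaled (lt_of_eq_of_lt (by simp only [SR]; norm_num) e)⟩

end

/-! ### The actual ratios -/

/-- `β = b - 1`. -/
def beR (l : ℕ) : ℝ := 11 / 2 + l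

/-- One backward step on ratios. -/
def fm (A : ℂ) (ρ β : ℝ) (z : ℂ) : ℂ := A * (z - I * ρ) / (A + (z - I * ρ) - β)

/-- The actual ratios above level three, the recursion below. -/
def qv (l : ℕ) (w ρ : ℝ) (lam : ℂ) : ℕ → ℂ
  | 0 => fm (An l w lam 0) ρ (beR l)
      (fm (An l w lam 1) ρ (beR l) (fm (An l w lam 2) ρ (beR l) (qs l w ρ lam 3)))
  | 1 => fm (An l w lam 1) ρ (beR l) (fm (An l w lam 2) ρ (beR l) (qs l w ρ lam 3))
  | 2 => fm (An l w lam 2) ρ (beR l) (qs l w ρ lam 3)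
  | (n + 3) => qs l w ρ lam (n + 3)

lemma beR_eq (l : ℕ) : (beR l : ℂ) = (bR l : ℂ) - 1 := by
  simp only [beR, bR]; push_cast; ring

lemma S_den {l : ℕ} {w ρ : ℝ} {lam : ℂ} {n : ℕ} (ha : -1 < (An l w lam n).re) (hρ : 0 < ρ)
    (hS1 : S (An l w lam (n + 1)) (bR l) ρ ≠ 0) :
    S (An l w lam n) (bR l) ρ = I * S (An l w lam (n + 1)) (bR l) ρ *
      (An l w lam n + (qs l w ρ lam (n + 1) - I * ρ) - beR l) ∧
    DS (An l w lam n) (bR l) ρ = I * S (An l w lam (n + 1)) (bR l) ρ *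
      (An l w lam n * (qs l w ρ lam (n + 1) - I * ρ)) := by
  have hζ : 0 < (ρ : ℂ).re := by simpa using hρ
  have e1 := S_step (a := An l w lam n) (ζ := ρ) (bR l : ℂ) ha hζ
  have e2 := DS_step (a := An l w lam n) (ζ := ρ) (bR l : ℂ) ha hζ
  rw [← An_succ] at e1 e2
  have hI : I * I = -1 := Complex.I_mul_I
  have hq : qs l w ρ lam (n + 1) * S (An l w lam (n + 1)) (bR l) ρ =
      DS (An l w lam (n + 1)) (bR l) ρ := by
    rw [qs, div_mul_cancel₀ _ hS1]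
  rw [e1, e2, ← hq, beR_eq, An_succ]
  constructor
  · linear_combination (ρ * S (An l w lam n + 1) (bR l) ρ) * hI
  · linear_combination (An l w lam n * ρ * S (An l w lam n + 1) (bR l) ρ) * hI

lemma qs_eq_fm {l : ℕ} {w ρ : ℝ} {lam : ℂ} {n : ℕ} (ha : -1 < (An l w lam n).re) (hρ : 0 < ρ)
    (hS1 : S (An l w lam (n + 1)) (bR l) ρ ≠ 0) :
    qs l w ρ lam n = fm (An l w lam n) ρ (beR l) (qs l w ρ lam (n + 1)) := by
  obtain ⟨h1, h2⟩ := S_den ha hρ hS1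
  conv_lhs => rw [qs, h1, h2]
  rw [fm, mul_div_mul_left _ _ (mul_ne_zero I_ne_zero hS1)]

lemma S_ne_of_den {l : ℕ} {w ρ : ℝ} {lam : ℂ} {n : ℕ} (ha : -1 < (An l w lam n).re)
    (hρ : 0 < ρ) (hS1 : S (An l w lam (n + 1)) (bR l) ρ ≠ 0)
    (hd : An l w lam n + (qs l w ρ lam (n + 1) - I * ρ) - beR l ≠ 0) :
    S (An l w lam n) (bR l) ρ ≠ 0 := by
  rw [(S_den ha hρ hS1).1]
  exact mul_ne_zero (mul_ne_zero I_ne_zero hS1) hd

lemma S_ne_of_half {l : ℕ} {w ρ : ℝ} {lam : ℂ} {n : ℕ} (h : beR l / 2 ≤ (An l w lam n).re)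
    (hρ : 0 < ρ) : S (An l w lam n) (bR l) ρ ≠ 0 := by
  have hl : (0 : ℝ) ≤ l := Nat.cast_nonneg l
  apply S_ne_zero _ _ hρ
  · simp only [bR]; linarith
  · simp only [bR, beR] at *; linarith

lemma qs_half_of {l : ℕ} {w ρ : ℝ} {lam : ℂ} {n : ℕ} (h : beR l / 2 ≤ (An l w lam n).re)
    (hρ : 0 < ρ) : beR l / 2 ≤ (qs l w ρ lam n).re := by
  have hl : (0 : ℝ) ≤ l := Nat.cast_nonneg l
  have hS := S_ne_of_half h hρ
  have hf := re_DS (a := An l w lam n) (b := bR l) (ρ := ρ)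
    (by simp only [beR] at h; linarith) (by simp only [bR, beR] at *; linarith) hρ
  have hN : 0 < normSq (S (An l w lam n) (bR l) ρ) := Complex.normSq_pos.2 hS
  have e : (qs l w ρ lam n).re = (DS (An l w lam n) (bR l) ρ *
      conj (S (An l w lam n) (bR l) ρ)).re / normSq (S (An l w lam n) (bR l) ρ) := by
    simp only [qs]
    rw [Complex.div_re, Complex.mul_re, Complex.conj_re, Complex.conj_im]
    ring
  rw [e, le_div_iff₀ hN]
  simp only [bR, beR] at *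
  linarith

lemma An_re_gt {l : ℕ} {w : ℝ} {lam : ℂ} (h : -1 / 4 ≤ lam.re) (n : ℕ) :
    -1 < (An l w lam n).re := by
  have hl : (0 : ℝ) ≤ l := Nat.cast_nonneg l
  have hn : (0 : ℝ) ≤ n := Nat.cast_nonneg n
  rw [An_re]; linarith

/-- In the half plane the recursion gives the actual ratio. -/
lemma qv_eq_qs {l : ℕ} {w ρ : ℝ} {lam : ℂ} (hlam : -1 / 4 ≤ lam.re) (hρ : 0 < ρ) :
    ∀ n, beR l / 2 ≤ (An l w lam n).re → qv l w ρ lam n = qs l w ρ lam n := by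
  have up : ∀ n, beR l / 2 ≤ (An l w lam n).re → beR l / 2 ≤ (An l w lam (n + 1)).re := by
    intro n h
    rw [An_succ, Complex.add_re, Complex.one_re]; linarith
  have h3 : S (An l w lam 3) (bR l) ρ ≠ 0 := S_An_ne hlam hρ (le_refl 3)
  have e2 : qv l w ρ lam 2 = qs l w ρ lam 2 := (qs_eq_fm (An_re_gt hlam 2) hρ h3).symm
  have e1 : beR l / 2 ≤ (An l w lam 2).re → qv l w ρ lam 1 = qs l w ρ lam 1 := by
    intro h
    rw [qs_eq_fm (An_re_gt hlam 1) hρ (S_ne_of_half h hρ), ← e2]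
    rfl
  intro n h
  match n with
  | 0 =>
    have h1 := up 0 h
    have h2 := up 1 h1
    rw [qs_eq_fm (An_re_gt hlam 0) hρ (S_ne_of_half h1 hρ), ← e1 h2]
    rfl
  | 1 => exact e1 (up 1 h)
  | 2 => exact e2
  | (n + 3) => rfl

/-- **The actual ratios form a `LadA` sequence.** -/
theorem ladA_qv {l : ℕ} {w ρ : ℝ} {lam : ℂ} (hlam : -1 / 4 ≤ lam.re) (hρ : 0 < ρ) :
    LadA (aE l w lam) ρ (beR l) (qv l w ρ lam) := by
  refine ⟨fun n h => ?_, fun n hd => ?_⟩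
  · have h' : beR l / 2 ≤ (An l w lam n).re := h
    rw [qv_eq_qs hlam hρ n h']
    exact qs_half_of h' hρ
  · match n with
    | 0 => rfl
    | 1 => rfl
    | 2 => rfl
    | (n + 3) =>
      exact qs_eq_fm (An_re_gt hlam (n + 3)) hρ (S_An_ne hlam hρ (by omega))

/-- Non-vanishing denominators give non-vanishing `S` and the actual ratio at level zero. -/
theorem qv_zero {l : ℕ} {w ρ : ℝ} {lam : ℂ} (hlam : -1 / 4 ≤ lam.re) (hρ : 0 < ρ)
    (hd : ∀ i < 3, den (aE l w lam) ρ (beR l) (qv l w ρ lam) i ≠ 0) :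
    S (aE l w lam) (bR l) ρ ≠ 0 ∧
      qv l w ρ lam 0 = DS (aE l w lam) (bR l) ρ / S (aE l w lam) (bR l) ρ := by
  have h3 : S (An l w lam 3) (bR l) ρ ≠ 0 := S_An_ne hlam hρ (le_refl 3)
  have e2 : qv l w ρ lam 2 = qs l w ρ lam 2 := (qs_eq_fm (An_re_gt hlam 2) hρ h3).symm
  have h2 : S (An l w lam 2) (bR l) ρ ≠ 0 :=
    S_ne_of_den (An_re_gt hlam 2) hρ h3 (hd 2 (by norm_num))
  have e1 : qv l w ρ lam 1 = qs l w ρ lam 1 := by
    rw [qs_eq_fm (An_re_gt hlam 1) hρ h2, ← e2]; rfl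
  have h1 : S (An l w lam 1) (bR l) ρ ≠ 0 := by
    refine S_ne_of_den (An_re_gt hlam 1) hρ h2 ?_
    rw [← e2]; exact hd 1 (by norm_num)
  have e0 : qv l w ρ lam 0 = qs l w ρ lam 0 := by
    rw [qs_eq_fm (An_re_gt hlam 0) hρ h1, ← e1]; rfl
  have h0 : S (An l w lam 0) (bR l) ρ ≠ 0 := by
    refine S_ne_of_den (An_re_gt hlam 0) hρ h1 ?_
    rw [← e1]; exact hd 0 (by norm_num)
  have eA : An l w lam 0 = aE l w lam := by simp [An]
  rw [eA] at h0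
  refine ⟨h0, ?_⟩
  rw [e0, qs, eA]

/-- Flux positivity from a lower bound of the ratio. -/
theorem bigIneq_of_qv {l : ℕ} {w ρ : ℝ} {lam : ℂ} (hlam : -1 / 4 ≤ lam.re) (hρ : 0 < ρ)
    (hd : ∀ i < 3, den (aE l w lam) ρ (beR l) (qv l w ρ lam) i ≠ 0) {c : ℝ}
    (hc : c ≤ (qv l w ρ lam 0).re) :
    S (aE l w lam) (bR l) ρ ≠ 0 ∧ c * normSq (S (aE l w lam) (bR l) ρ) ≤
      (DS (aE l w lam) (bR l) ρ * conj (S (aE l w lam) (bR l) ρ)).re := by
  obtain ⟨h0, e⟩ := qv_zero hlam hρ hd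
  refine ⟨h0, ?_⟩
  have hN : 0 < normSq (S (aE l w lam) (bR l) ρ) := Complex.normSq_pos.2 h0
  have e2 : (qv l w ρ lam 0).re = (DS (aE l w lam) (bR l) ρ *
      conj (S (aE l w lam) (bR l) ρ)).re / normSq (S (aE l w lam) (bR l) ρ) := by
    rw [e, Complex.div_re, Complex.mul_re, Complex.conj_re, Complex.conj_im]
    ring
  rw [e2, le_div_iff₀ hN] at hc
  exact hc

/-! ### Boxes for the actual functions -/

lemma aE_im' (l : ℕ) (w : ℝ) (lam : ℂ) : (aE l w lam).im = lam.im - w := by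
  simp [aE]

/-- Far right: the ratio is at least `(b - 1) / 2`. -/
lemma ratio_right {l : ℕ} {w ρ : ℝ} {lam : ℂ} (hρ : 0 < ρ) (h : 11 / 4 ≤ lam.re) :
    S (aE l w lam) (bR l) ρ ≠ 0 ∧ beR l / 2 * normSq (S (aE l w lam) (bR l) ρ) ≤
      (DS (aE l w lam) (bR l) ρ * conj (S (aE l w lam) (bR l) ρ)).re := by
  have hl : (0 : ℝ) ≤ l := Nat.cast_nonneg l
  have hab : (bR l - 1) / 2 ≤ (aE l w lam).re := by rw [aE_re, bR]; linarith
  have hb : 2 < bR l := by rw [bR]; linarith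
  refine ⟨S_ne_zero hb hab hρ, ?_⟩
  have h2 := re_DS (b := bR l) (by rw [aE_re]; linarith) hab hρ
  have e : beR l = bR l - 1 := by simp only [beR, bR]; ring
  rw [e]
  exact h2

lemma bigIneq_of_ratio {l : ℕ} {w ρ : ℝ} {lam : ℂ} {c : ℝ} (hc : 0 < c)
    (h : S (aE l w lam) (bR l) ρ ≠ 0 ∧ c * normSq (S (aE l w lam) (bR l) ρ) ≤
      (DS (aE l w lam) (bR l) ρ * conj (S (aE l w lam) (bR l) ρ)).re) :
    BigIneq l w ρ lam :=
  lt_of_lt_of_le (mul_pos hc (Complex.normSq_pos.2 h.1)) h.2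

section

variable {w ρ : ℝ} {lam : ℂ}

/-- `l = 0`: the ratio `DS / S` has real part `≥ 0`. -/
theorem ratio_box0 (h1 : 2.66394 ≤ ρ) (h2 : ρ ≤ 2.66399) (h3 : 0 ≤ lam.re)
    (h5 : 17 / 4 ≤ lam.im - w) (h6 : lam.im - w ≤ 6) :
    S (aE 0 w lam) (bR 0) ρ ≠ 0 ∧ 0 * normSq (S (aE 0 w lam) (bR 0) ρ) ≤
      (DS (aE 0 w lam) (bR 0) ρ * conj (S (aE 0 w lam) (bR 0) ρ)).re ∧
    0 < (DS (aE 0 w lam) (bR 0) ρ * conj (S (aE 0 w lam) (bR 0) ρ)).re := by
  have hρ : 0 < ρ := by linarith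
  rcases le_total (11 / 4) lam.re with h4 | h4
  · obtain ⟨r1, r2⟩ := ratio_right (l := 0) (w := w) hρ h4
    have hN : 0 < normSq (S (aE 0 w lam) (bR 0) ρ) := Complex.normSq_pos.2 r1
    have e : beR 0 = 11 / 2 := by simp only [beR]; norm_num
    rw [e] at r2
    exact ⟨r1, by nlinarith, by nlinarith⟩
  · have hq := ladA_qv (l := 0) (w := w) (ρ := ρ) (lam := lam) (by linarith) hρ
    have e : beR 0 = 11 / 2 := by simp only [beR]; norm_num
    have hq' := hq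
    rw [e] at hq'
    obtain ⟨d, c⟩ := box0 hq' h1 h2 (by rw [aE_re]; push_cast; linarith)
      (by rw [aE_re]; push_cast; linarith) (by rw [aE_im']; exact h5) (by rw [aE_im']; exact h6)
    rw [← e] at d
    obtain ⟨h0, e0⟩ := qv_zero (by linarith) hρ (fun i _ => d i)
    have r1 := bigIneq_of_qv (by linarith) hρ (fun i _ => d i) (le_refl _)
    have hN : 0 < normSq (S (aE 0 w lam) (bR 0) ρ) := Complex.normSq_pos.2 h0
    exact ⟨h0, le_trans (mul_le_mul_of_nonneg_right c.le hN.le) r1.2,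
      lt_of_lt_of_le (mul_pos (lt_of_le_of_lt (by norm_num) c) hN) r1.2⟩

/-- `l = 4`: the ratio `DS / S` has real part `≥ 0`. -/
theorem ratio_box4 (h1 : 2.66394 ≤ ρ) (h2 : ρ ≤ 2.66399) (h3 : 0 ≤ lam.re)
    (h5 : 0 ≤ w - lam.im) (h6 : w - lam.im ≤ 8) :
    S (aE 4 w lam) (bR 4) ρ ≠ 0 ∧ 0 * normSq (S (aE 4 w lam) (bR 4) ρ) ≤
      (DS (aE 4 w lam) (bR 4) ρ * conj (S (aE 4 w lam) (bR 4) ρ)).re ∧
    0 < (DS (aE 4 w lam) (bR 4) ρ * conj (S (aE 4 w lam) (bR 4) ρ)).re := by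
  have hρ : 0 < ρ := by linarith
  rcases le_total (11 / 4) lam.re with h4 | h4
  · obtain ⟨r1, r2⟩ := ratio_right (l := 4) (w := w) hρ h4
    have hN : 0 < normSq (S (aE 4 w lam) (bR 4) ρ) := Complex.normSq_pos.2 r1
    have e : beR 4 = 19 / 2 := by simp only [beR]; norm_num
    rw [e] at r2
    exact ⟨r1, by nlinarith, by nlinarith⟩
  · have hq := ladA_qv (l := 4) (w := w) (ρ := ρ) (lam := lam) (by linarith) hρ
    have e : beR 4 = 19 / 2 := by simp only [beR]; norm_num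
    have hq' := hq
    rw [e] at hq'
    obtain ⟨d, c⟩ := box4 hq' h1 h2 (by rw [aE_re]; push_cast; linarith)
      (by rw [aE_re]; push_cast; linarith) (by rw [aE_im']; linarith) (by rw [aE_im']; linarith)
    rw [← e] at d
    obtain ⟨h0, e0⟩ := qv_zero (by linarith) hρ (fun i _ => d i)
    have r1 := bigIneq_of_qv (by linarith) hρ (fun i _ => d i) (le_refl _)
    have hN : 0 < normSq (S (aE 4 w lam) (bR 4) ρ) := Complex.normSq_pos.2 h0
    exact ⟨h0, le_trans (mul_le_mul_of_nonneg_right c.le hN.le) r1.2,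
      lt_of_lt_of_le (mul_pos (lt_of_le_of_lt (by norm_num) c) hN) r1.2⟩

/-- `l = 5`: the ratio `DS / S` has real part `≥ 0`. -/
theorem ratio_box5 (h1 : 2.66394 ≤ ρ) (h2 : ρ ≤ 2.66399) (h3 : 0 ≤ lam.re)
    (h5 : 0 ≤ w - lam.im) (h6 : w - lam.im ≤ 10) :
    S (aE 5 w lam) (bR 5) ρ ≠ 0 ∧ 0 * normSq (S (aE 5 w lam) (bR 5) ρ) ≤
      (DS (aE 5 w lam) (bR 5) ρ * conj (S (aE 5 w lam) (bR 5) ρ)).re ∧
    0 < (DS (aE 5 w lam) (bR 5) ρ * conj (S (aE 5 w lam) (bR 5) ρ)).re := by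
  have hρ : 0 < ρ := by linarith
  rcases le_total (11 / 4) lam.re with h4 | h4
  · obtain ⟨r1, r2⟩ := ratio_right (l := 5) (w := w) hρ h4
    have hN : 0 < normSq (S (aE 5 w lam) (bR 5) ρ) := Complex.normSq_pos.2 r1
    have e : beR 5 = 21 / 2 := by simp only [beR]; norm_num
    rw [e] at r2
    exact ⟨r1, by nlinarith, by nlinarith⟩
  · have hq := ladA_qv (l := 5) (w := w) (ρ := ρ) (lam := lam) (by linarith) hρ
    have e : beR 5 = 21 / 2 := by simp only [beR]; norm_num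
    have hq' := hq
    rw [e] at hq'
    obtain ⟨d, c⟩ := box5 hq' h1 h2 (by rw [aE_re]; push_cast; linarith)
      (by rw [aE_re]; push_cast; linarith) (by rw [aE_im']; linarith) (by rw [aE_im']; linarith)
    rw [← e] at d
    obtain ⟨h0, e0⟩ := qv_zero (by linarith) hρ (fun i _ => d i)
    have r1 := bigIneq_of_qv (by linarith) hρ (fun i _ => d i) (le_refl _)
    have hN : 0 < normSq (S (aE 5 w lam) (bR 5) ρ) := Complex.normSq_pos.2 h0
    exact ⟨h0, le_trans (mul_le_mul_of_nonneg_right c.le hN.le) r1.2,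
      lt_of_lt_of_le (mul_pos (lt_of_le_of_lt (by norm_num) c) hN) r1.2⟩

/-- `l = 6`: the ratio `DS / S` has real part `≥ 0`. -/
theorem ratio_box6 (h1 : 2.66394 ≤ ρ) (h2 : ρ ≤ 2.66399) (h3 : 0 ≤ lam.re)
    (h5 : 0 ≤ w - lam.im) (h6 : w - lam.im ≤ 12) :
    S (aE 6 w lam) (bR 6) ρ ≠ 0 ∧ 0 * normSq (S (aE 6 w lam) (bR 6) ρ) ≤
      (DS (aE 6 w lam) (bR 6) ρ * conj (S (aE 6 w lam) (bR 6) ρ)).re ∧
    0 < (DS (aE 6 w lam) (bR 6) ρ * conj (S (aE 6 w lam) (bR 6) ρ)).re := by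
  have hρ : 0 < ρ := by linarith
  rcases le_total (11 / 4) lam.re with h4 | h4
  · obtain ⟨r1, r2⟩ := ratio_right (l := 6) (w := w) hρ h4
    have hN : 0 < normSq (S (aE 6 w lam) (bR 6) ρ) := Complex.normSq_pos.2 r1
    have e : beR 6 = 23 / 2 := by simp only [beR]; norm_num
    rw [e] at r2
    exact ⟨r1, by nlinarith, by nlinarith⟩
  · have hq := ladA_qv (l := 6) (w := w) (ρ := ρ) (lam := lam) (by linarith) hρ
    have e : beR 6 = 23 / 2 := by simp only [beR]; norm_num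
    have hq' := hq
    rw [e] at hq'
    obtain ⟨d, c⟩ := box6 hq' h1 h2 (by rw [aE_re]; push_cast; linarith)
      (by rw [aE_re]; push_cast; linarith) (by rw [aE_im']; linarith) (by rw [aE_im']; linarith)
    rw [← e] at d
    obtain ⟨h0, e0⟩ := qv_zero (by linarith) hρ (fun i _ => d i)
    have r1 := bigIneq_of_qv (by linarith) hρ (fun i _ => d i) (le_refl _)
    have hN : 0 < normSq (S (aE 6 w lam) (bR 6) ρ) := Complex.normSq_pos.2 h0
    exact ⟨h0, le_trans (mul_le_mul_of_nonneg_right c.le hN.le) r1.2,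
      lt_of_lt_of_le (mul_pos (lt_of_le_of_lt (by norm_num) c) hN) r1.2⟩

/-- `l = 7`: the ratio `DS / S` has real part `≥ 0`. -/
theorem ratio_box7 (h1 : 2.66394 ≤ ρ) (h2 : ρ ≤ 2.66399) (h3 : 0 ≤ lam.re)
    (h5 : 0 ≤ w - lam.im) (h6 : w - lam.im ≤ 57 / 4) :
    S (aE 7 w lam) (bR 7) ρ ≠ 0 ∧ 0 * normSq (S (aE 7 w lam) (bR 7) ρ) ≤
      (DS (aE 7 w lam) (bR 7) ρ * conj (S (aE 7 w lam) (bR 7) ρ)).re ∧
    0 < (DS (aE 7 w lam) (bR 7) ρ * conj (S (aE 7 w lam) (bR 7) ρ)).re := by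
  have hρ : 0 < ρ := by linarith
  rcases le_total (11 / 4) lam.re with h4 | h4
  · obtain ⟨r1, r2⟩ := ratio_right (l := 7) (w := w) hρ h4
    have hN : 0 < normSq (S (aE 7 w lam) (bR 7) ρ) := Complex.normSq_pos.2 r1
    have e : beR 7 = 25 / 2 := by simp only [beR]; norm_num
    rw [e] at r2
    exact ⟨r1, by nlinarith, by nlinarith⟩
  · have hq := ladA_qv (l := 7) (w := w) (ρ := ρ) (lam := lam) (by linarith) hρ
    have e : beR 7 = 25 / 2 := by simp only [beR]; norm_num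
    have hq' := hq
    rw [e] at hq'
    obtain ⟨d, c⟩ := box7 hq' h1 h2 (by rw [aE_re]; push_cast; linarith)
      (by rw [aE_re]; push_cast; linarith) (by rw [aE_im']; linarith) (by rw [aE_im']; linarith)
    rw [← e] at d
    obtain ⟨h0, e0⟩ := qv_zero (by linarith) hρ (fun i _ => d i)
    have r1 := bigIneq_of_qv (by linarith) hρ (fun i _ => d i) (le_refl _)
    have hN : 0 < normSq (S (aE 7 w lam) (bR 7) ρ) := Complex.normSq_pos.2 h0
    exact ⟨h0, le_trans (mul_le_mul_of_nonneg_right c.le hN.le) r1.2,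
      lt_of_lt_of_le (mul_pos (lt_of_le_of_lt (by norm_num) c) hN) r1.2⟩

/-- `l = 8`: the ratio `DS / S` has real part `≥ 19 / 4`. -/
theorem ratio_box8 (h1 : 2.66394 ≤ ρ) (h2 : ρ ≤ 2.66399) (h3 : 0 ≤ lam.re)
    (h5 : 0 ≤ w - lam.im) (h6 : w - lam.im ≤ 33 / 2) :
    S (aE 8 w lam) (bR 8) ρ ≠ 0 ∧ 19 / 4 * normSq (S (aE 8 w lam) (bR 8) ρ) ≤
      (DS (aE 8 w lam) (bR 8) ρ * conj (S (aE 8 w lam) (bR 8) ρ)).re ∧
    0 < (DS (aE 8 w lam) (bR 8) ρ * conj (S (aE 8 w lam) (bR 8) ρ)).re := by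
  have hρ : 0 < ρ := by linarith
  rcases le_total (11 / 4) lam.re with h4 | h4
  · obtain ⟨r1, r2⟩ := ratio_right (l := 8) (w := w) hρ h4
    have hN : 0 < normSq (S (aE 8 w lam) (bR 8) ρ) := Complex.normSq_pos.2 r1
    have e : beR 8 = 27 / 2 := by simp only [beR]; norm_num
    rw [e] at r2
    exact ⟨r1, by nlinarith, by nlinarith⟩
  · have hq := ladA_qv (l := 8) (w := w) (ρ := ρ) (lam := lam) (by linarith) hρ
    have e : beR 8 = 27 / 2 := by simp only [beR]; norm_num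
    have hq' := hq
    rw [e] at hq'
    obtain ⟨d, c⟩ := box8 hq' h1 h2 (by rw [aE_re]; push_cast; linarith)
      (by rw [aE_re]; push_cast; linarith) (by rw [aE_im']; linarith) (by rw [aE_im']; linarith)
    rw [← e] at d
    obtain ⟨h0, e0⟩ := qv_zero (by linarith) hρ (fun i _ => d i)
    have r1 := bigIneq_of_qv (by linarith) hρ (fun i _ => d i) (le_refl _)
    have hN : 0 < normSq (S (aE 8 w lam) (bR 8) ρ) := Complex.normSq_pos.2 h0
    exact ⟨h0, le_trans (mul_le_mul_of_nonneg_right c.le hN.le) r1.2,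
      lt_of_lt_of_le (mul_pos (lt_of_le_of_lt (by norm_num) c) hN) r1.2⟩

/-- `l = 9`: the ratio `DS / S` has real part `≥ 21 / 4`. -/
theorem ratio_box9 (h1 : 2.66394 ≤ ρ) (h2 : ρ ≤ 2.66399) (h3 : 0 ≤ lam.re)
    (h5 : 0 ≤ w - lam.im) (h6 : w - lam.im ≤ 33 / 2) :
    S (aE 9 w lam) (bR 9) ρ ≠ 0 ∧ 21 / 4 * normSq (S (aE 9 w lam) (bR 9) ρ) ≤
      (DS (aE 9 w lam) (bR 9) ρ * conj (S (aE 9 w lam) (bR 9) ρ)).re ∧
    0 < (DS (aE 9 w lam) (bR 9) ρ * conj (S (aE 9 w lam) (bR 9) ρ)).re := by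
  have hρ : 0 < ρ := by linarith
  rcases le_total (11 / 4) lam.re with h4 | h4
  · obtain ⟨r1, r2⟩ := ratio_right (l := 9) (w := w) hρ h4
    have hN : 0 < normSq (S (aE 9 w lam) (bR 9) ρ) := Complex.normSq_pos.2 r1
    have e : beR 9 = 29 / 2 := by simp only [beR]; norm_num
    rw [e] at r2
    exact ⟨r1, by nlinarith, by nlinarith⟩
  · have hq := ladA_qv (l := 9) (w := w) (ρ := ρ) (lam := lam) (by linarith) hρ
    have e : beR 9 = 29 / 2 := by simp only [beR]; norm_num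
    have hq' := hq
    rw [e] at hq'
    obtain ⟨d, c⟩ := box9 hq' h1 h2 (by rw [aE_re]; push_cast; linarith)
      (by rw [aE_re]; push_cast; linarith) (by rw [aE_im']; linarith) (by rw [aE_im']; linarith)
    rw [← e] at d
    obtain ⟨h0, e0⟩ := qv_zero (by linarith) hρ (fun i _ => d i)
    have r1 := bigIneq_of_qv (by linarith) hρ (fun i _ => d i) (le_refl _)
    have hN : 0 < normSq (S (aE 9 w lam) (bR 9) ρ) := Complex.normSq_pos.2 h0
    exact ⟨h0, le_trans (mul_le_mul_of_nonneg_right c.le hN.le) r1.2,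
      lt_of_lt_of_le (mul_pos (lt_of_le_of_lt (by norm_num) c) hN) r1.2⟩

/-- All boxes together, in terms of `Fl`. -/
theorem fl_box {l : ℕ} {R : ℝ} (hR : 0 < R) (h1 : 2.66394 ≤ R ^ 2 / 4) (h2 : R ^ 2 / 4 ≤ 2.66399)
    (h3 : 0 ≤ lam.re)
    (h : (l = 0 ∧ 17 / 4 ≤ lam.im - w ∧ lam.im - w ≤ 6) ∨
      (0 ≤ w - lam.im ∧ ((l = 4 ∧ w - lam.im ≤ 8) ∨ (l = 5 ∧ w - lam.im ≤ 10) ∨
        (l = 6 ∧ w - lam.im ≤ 12) ∨ (l = 7 ∧ w - lam.im ≤ 57 / 4) ∨
        (l = 8 ∧ w - lam.im ≤ 33 / 2) ∨ (l = 9 ∧ w - lam.im ≤ 33 / 2)))) :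
    Fl l w R lam := by
  rw [← bigIneq_iff_Fl hR]
  rcases h with ⟨rfl, h5, h6⟩ | ⟨h5, ⟨rfl, h6⟩ | ⟨rfl, h6⟩ | ⟨rfl, h6⟩ | ⟨rfl, h6⟩ | ⟨rfl, h6⟩ |
    ⟨rfl, h6⟩⟩
  · exact (ratio_box0 h1 h2 h3 h5 h6).2.2
  · exact (ratio_box4 h1 h2 h3 h5 h6).2.2
  · exact (ratio_box5 h1 h2 h3 h5 h6).2.2
  · exact (ratio_box6 h1 h2 h3 h5 h6).2.2
  · exact (ratio_box7 h1 h2 h3 h5 h6).2.2
  · exact (ratio_box8 h1 h2 h3 h5 h6).2.2
  · exact (ratio_box9 h1 h2 h3 h5 h6).2.2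

end

end Vale.Agent.P139.H772
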