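import Vale.Agent.P139.H772.Box3

/-!
# Flux positivity for `l = 0`, `6 ≤ Im lam - w ≤ 12`
-/

noncomputable section

open MeasureTheory Set Filter Topology Complex ComplexConjugate

namespace Vale.Agent.P139.H772

open Vale.Agent.P139.KU (S aE bE F0 F0' aE_re)
open Vale.Agent.P139.H472 (SR SR_pos SZ_cast)
open Vale.Agent.P139.H312 (Fl)

set_option maxRecDepth 20000

/-- tree for `l = 0`, second box -/
def tr0b : Tr := .sy (.sy (.sy (.sx (.sy (.sx (.leaf 20) (.leaf 19)) (.sx (.leaf 21) (.leaf 20))) (.sy (.leaf 25) (.leaf 26))) (.sx (.sy (.leaf 30) (.leaf 31)) (.sy (.leaf 28) (.leaf 30)))) (.sy (.sx (.sy (.leaf 32) (.leaf 34)) (.sy (.leaf 32) (.leaf 34))) (.sx (.sy (.leaf 36) (.leaf 38)) (.sy (.leaf 36) (.leaf 38))))) (.sy (.sy (.sx (.sy (.leaf 40) (.leaf 43)) (.leaf 65)) (.sx (.sy (.leaf 45) (.leaf 47)) (.sy (.leaf 44) (.leaf 46)))) (.sy (.sx (.sy (.leaf 49) (.leaf 51)) (.sy (.leaf 48) (.leaf 51))) (.sx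 (.sy (.leaf 53) (.leaf 55)) (.sy (.leaf 53) (.leaf 55)))))

theorem chk0b : chk (1548112371908608) irho0 (0) tr0b (0) (281474976710656) (1688849860263936) (3377699720527872) = true := by
  decide +kernel

/-- `l = 0`, second box. -/
theorem big0b {w ρ : ℝ} {lam : ℂ} (h1 : 2.66394 ≤ ρ) (h2 : ρ ≤ 2.66399) (h3 : 0 ≤ lam.re)
    (h5 : 6 ≤ lam.im - w) (h6 : lam.im - w ≤ 12) : BigIneq 0 w ρ lam := by
  have hρ : 0 < ρ := by linarith
  have hS := SR_pos
  rcases le_total (11 / 4) lam.re with h4 | h4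
  · exact bigIneq_of_re hρ h4
  have hq := ladA_qv (l := 0) (w := w) (ρ := ρ) (lam := lam) (by linarith) hρ
  obtain ⟨d, c⟩ := box_sound (by simp only [beR, SR]; norm_num) hq h1 h2 chk0b
    (by simp only [beR, SR]; norm_num) (by simp only [beR, SR]; norm_num)
    (by rw [aE_re, beR]; push_cast; linarith) (by rw [aE_re, beR]; push_cast; linarith)
    (by rw [aE_im']; simp only [SR]; push_cast; linarith)
    (by rw [aE_im']; simp only [SR]; push_cast; linarith)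
  rw [Int.cast_zero] at c
  have c' : 0 < (qv 0 w ρ lam 0).re := by
    by_contra hc
    exact absurd c (not_lt.2 (mul_nonpos_of_nonpos_of_nonneg (not_lt.1 hc) hS.le))
  exact bigIneq_of_ratio c' (bigIneq_of_qv (by linarith) hρ (fun i _ => d i) (le_refl _))

/-- `l = 0`, `17/4 ≤ Im lam - w ≤ 12`. -/
theorem fl_box0 {w R : ℝ} {lam : ℂ} (hR : 0 < R) (h1 : 2.66394 ≤ R ^ 2 / 4)
    (h2 : R ^ 2 / 4 ≤ 2.66399) (h3 : 0 ≤ lam.re) (h5 : 17 / 4 ≤ lam.im - w)
    (h6 : lam.im - w ≤ 12) : Fl 0 w R lam := by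
  rcases le_total (lam.im - w) 6 with h | h
  · exact fl_box hR h1 h2 h3 (Or.inl ⟨rfl, h5, h⟩)
  · exact (bigIneq_iff_Fl hR).1 (big0b h1 h2 h3 h h6)

end Vale.Agent.P139.H772
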