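import Vale.Agent.P139.KU.Evans
import Vale.Agent.P139.KU.Flux
import Vale.Agent.P139.H66.ReFlux

/-!
# Backward ladder at fixed second parameter

`DS a b ζ = ζ a S(a+1,b+1,ζ) = -ζ ∂_ζ S(a,b,ζ)`.  The pair `(S, DS)` at `a` is an affine image of
the pair at `a + 1` (same `b`).
-/

noncomputable section

open MeasureTheory Set Filter Topology Complex ComplexConjugate

namespace Vale.Agent.P139.H772

open Vale.Agent.P139.KU (S J S_eq_of_pos S_contig J_rec_c differentiableAt_S)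

/-- `-ζ ∂_ζ S(a,b,ζ)`. -/
def DS (a b ζ : ℂ) : ℂ := ζ * a * S (a + 1) (b + 1) ζ

/-- Contiguous relation in the second parameter. -/
theorem S_b_succ {a ζ : ℂ} (b : ℂ) (ha : 0 < a.re) (hζ : 0 < ζ.re) :
    S a (b + 1) ζ = S a b ζ + I * a * S (a + 1) (b + 1) ζ := by
  have ha1 : 0 < (a + 1).re := by simp; linarith
  have ha0 : a ≠ 0 := by rintro rfl; simp at ha
  have hG : Gamma a ≠ 0 := Complex.Gamma_ne_zero_of_re_pos ha
  rw [S_eq_of_pos (b + 1) ha hζ, S_eq_of_pos b ha hζ, S_eq_of_pos (b + 1) ha1 hζ,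
    Complex.Gamma_add_one a ha0]
  have h := J_rec_c (b + 1 - a - 1) ha hζ
  rw [show b + 1 - a - 1 - 1 = b - a - 1 by ring] at h
  rw [h, show b + 1 - (a + 1) - 1 = b - a - 1 by ring]
  field_simp

/-- One backward step, first component. -/
theorem S_step {a ζ : ℂ} (b : ℂ) (ha : -1 < a.re) (hζ : 0 < ζ.re) :
    S a b ζ = (ζ + I * (a + 1 - b)) * S (a + 1) b ζ + I * DS (a + 1) b ζ := by
  have ha1 : 0 < (a + 1).re := by simp; linarith
  have h1 := S_contig b ha hζ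
  have h2 := S_b_succ b ha1 hζ
  rw [h1, h2, DS]
  ring

/-- One backward step, second component. -/
theorem DS_step {a ζ : ℂ} (b : ℂ) (ha : -1 < a.re) (hζ : 0 < ζ.re) :
    DS a b ζ = a * (ζ * S (a + 1) b ζ + I * DS (a + 1) b ζ) := by
  have ha1 : 0 < (a + 1).re := by simp; linarith
  have h2 := S_b_succ b ha1 hζ
  rw [DS, h2, DS]
  ring

/-- One backward step on pairs. -/
def stp (a b ζ : ℂ) (v : ℂ × ℂ) : ℂ × ℂ :=
  ((ζ + I * (a + 1 - b)) * v.1 + I * v.2, a * (ζ * v.1 + I * v.2))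

theorem pair_step {a ζ : ℂ} (b : ℂ) (ha : -1 < a.re) (hζ : 0 < ζ.re) :
    (S a b ζ, DS a b ζ) = stp a b ζ (S (a + 1) b ζ, DS (a + 1) b ζ) := by
  rw [S_step b ha hζ, DS_step b ha hζ]
  rfl

lemma stp_smul (a b ζ c : ℂ) (v : ℂ × ℂ) :
    stp a b ζ (c * v.1, c * v.2) = (c * (stp a b ζ v).1, c * (stp a b ζ v).2) := by
  simp only [stp, Prod.mk.injEq]
  constructor <;> ring

/-- Three backward steps from `(1, q)` at level `a + 3`. -/
def low (a b ζ q : ℂ) : ℂ × ℂ := stp a b ζ (stp (a + 1) b ζ (stp (a + 2) b ζ (1, q)))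

/-- ratio at level three -/
def q3 (a b ζ : ℂ) : ℂ := DS (a + 3) b ζ / S (a + 3) b ζ

theorem pair_low {a ζ : ℂ} (b : ℂ) (ha : -1 < a.re) (hζ : 0 < ζ.re)
    (h3 : S (a + 3) b ζ ≠ 0) :
    S a b ζ = S (a + 3) b ζ * (low a b ζ (q3 a b ζ)).1 ∧
      DS a b ζ = S (a + 3) b ζ * (low a b ζ (q3 a b ζ)).2 := by
  have e0 := pair_step b ha hζ
  have e1 := pair_step (a := a + 1) b (by simp; linarith) hζ
  have e2 := pair_step (a := a + 2) b (by simp; linarith) hζ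
  rw [show a + 1 + 1 = a + 2 by ring] at e1
  rw [show a + 2 + 1 = a + 3 by ring] at e2
  have e3 : (S (a + 3) b ζ, DS (a + 3) b ζ) =
      (S (a + 3) b ζ * ((1, q3 a b ζ) : ℂ × ℂ).1, S (a + 3) b ζ * ((1, q3 a b ζ) : ℂ × ℂ).2) := by
    simp only [q3, mul_one, Prod.mk.injEq, true_and]
    field_simp
  rw [e3, stp_smul] at e2
  rw [e2, stp_smul] at e1
  rw [e1, stp_smul] at e0
  exact ⟨congrArg Prod.fst e0, congrArg Prod.snd e0⟩

/-! ### Non-vanishing and the half plane -/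

lemma S_DS_eq {a : ℂ} {b ρ : ℝ} (ha : 0 < a.re) (hρ : 0 < ρ) :
    S a b ρ = J a (b - a - 1) ρ / Gamma a ∧ DS a b ρ = ρ * J (a + 1) (b - a - 1) ρ / Gamma a := by
  have hζ : 0 < (ρ : ℂ).re := by simpa using hρ
  have ha1 : 0 < (a + 1).re := by simp; linarith
  have ha0 : a ≠ 0 := by rintro rfl; simp at ha
  have hG : Gamma a ≠ 0 := Complex.Gamma_ne_zero_of_re_pos ha
  refine ⟨S_eq_of_pos b ha hζ, ?_⟩
  rw [DS, S_eq_of_pos (b + 1) ha1 hζ, Complex.Gamma_add_one a ha0,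
    show (b : ℂ) + 1 - (a + 1) - 1 = b - a - 1 by ring]
  field_simp

/-- Lemma RE for the normalised pair. -/
theorem re_DS {a : ℂ} {b ρ : ℝ} (ha : 0 < a.re) (hab : (b - 1) / 2 ≤ a.re) (hρ : 0 < ρ) :
    (b - 1) / 2 * normSq (S a b ρ) ≤ (DS a b ρ * conj (S a b ρ)).re := by
  obtain ⟨h1, h2⟩ := S_DS_eq (b := b) ha hρ
  have hG : Gamma a ≠ 0 := Complex.Gamma_ne_zero_of_re_pos ha
  have hN : 0 < normSq (Gamma a) := Complex.normSq_pos.2 hG
  have h := Vale.Agent.P139.H66.re_flux (a := a) (c := b - a - 1) (b := b) (by ring) ha hab hρ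
  rw [h1, h2]
  have e : ρ * J (a + 1) (b - a - 1) ρ / Gamma a * conj (J a (b - a - 1) ρ / Gamma a) =
      (ρ * J (a + 1) (b - a - 1) ρ * conj (J a (b - a - 1) ρ)) / (normSq (Gamma a) : ℝ) := by
    rw [map_div₀, ← Complex.mul_conj]
    have hGc : conj (Gamma a) ≠ 0 := by simpa using hG
    field_simp
  rw [e, Complex.div_ofReal_re, map_div₀, mul_div_assoc']
  exact div_le_div_of_nonneg_right h hN.le

lemma S_ne_zero_of_flux {a : ℂ} {b ρ : ℝ} (ha : 0 < a.re) (hab : b / 2 < a.re) (hρ : 0 < ρ) :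
    S a b ρ ≠ 0 := by
  rw [(S_DS_eq (b := b) ha hρ).1]
  exact div_ne_zero (Vale.Agent.P139.KU.J_ne_zero_of_flux (by ring) ha hab hρ)
    (Complex.Gamma_ne_zero_of_re_pos ha)

/-- `S a b ρ ≠ 0` as soon as `(b-1)/2 ≤ Re a`. -/
theorem S_ne_zero {a : ℂ} {b ρ : ℝ} (hb : 2 < b) (hab : (b - 1) / 2 ≤ a.re) (hρ : 0 < ρ) :
    S a b ρ ≠ 0 := by
  have ha : 0 < a.re := by linarith
  have hζ : 0 < (ρ : ℂ).re := by simpa using hρ
  by_cases h : b / 2 < a.re
  · exact S_ne_zero_of_flux ha h hρ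
  intro h0
  obtain ⟨e1, e2⟩ := S_DS_eq (b := b) ha hρ
  have hG : Gamma a ≠ 0 := Complex.Gamma_ne_zero_of_re_pos ha
  have hJ : J a (b - a - 1) ρ = 0 := by
    rw [e1] at h0
    rcases div_eq_zero_iff.1 h0 with h | h
    · exact h
    · exact absurd h hG
  have hJ1 := Vale.Agent.P139.H66.J_succ_eq_zero (a := a) (c := b - a - 1) (b := b) (by ring) ha
    hab hρ hJ
  have hD : DS a b ρ = 0 := by rw [e2, hJ1]; simp
  have s1 := S_step (a := a) (b : ℂ) (by linarith) hζ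
  have s2 := DS_step (a := a) (b : ℂ) (by linarith) hζ
  have ha0 : a ≠ 0 := by rintro rfl; simp at ha
  rw [hD] at s2
  rw [h0] at s1
  have h3 : (ρ : ℂ) * S (a + 1) b ρ + I * DS (a + 1) b ρ = 0 := by
    rcases mul_eq_zero.1 s2.symm with h | h
    · exact absurd h ha0
    · exact h
  have h4 : I * (a + 1 - b) * S (a + 1) b ρ = 0 := by linear_combination (-1 : ℂ) * s1 - h3
  have h5 : S (a + 1) b ρ ≠ 0 := S_ne_zero_of_flux (by simp; linarith) (by simp; linarith) hρ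
  have h6 : (a + 1 - b : ℂ) ≠ 0 := by
    intro h
    have := congrArg Complex.re h
    simp at this
    linarith
  exact absurd h4 (mul_ne_zero (mul_ne_zero I_ne_zero h6) h5)

end Vale.Agent.P139.H772
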