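import Mathlib.Analysis.Complex.AbsMax
import Mathlib.Analysis.Complex.RemovableSingularity
import Mathlib.Analysis.Complex.ReImTopology

/-!
# Positive real part propagates from the boundary of a bounded domain
-/

noncomputable section

open Set Filter Topology Complex ComplexConjugate Bornology

namespace Vale.Agent.P139.H772

/-- If `Re f > 0` on the frontier of a bounded set, then `Re f > 0` on its closure. -/
theorem re_pos_of_frontier {U : Set ℂ} (hU : IsBounded U) {f : ℂ → ℂ} (hf : DiffContOnCl ℂ f U)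
    (hb : ∀ z ∈ frontier U, 0 < (f z).re) {z : ℂ} (hz : z ∈ closure U) : 0 < (f z).re := by
  have hcomp : IsCompact (frontier U) :=
    Metric.isCompact_of_isClosed_isBounded isClosed_frontier
      (hU.closure.subset frontier_subset_closure)
  have hcont : ContinuousOn (fun z => (f z).re) (frontier U) :=
    Complex.continuous_re.comp_continuousOn (hf.continuousOn.mono frontier_subset_closure)
  obtain ⟨m, hm, hmin⟩ : ∃ m : ℝ, 0 < m ∧ ∀ z ∈ frontier U, m ≤ (f z).re := by
    by_cases hne : (frontier U).Nonempty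
    · obtain ⟨z₀, hz₀, hmin⟩ := hcomp.exists_isMinOn hne hcont
      exact ⟨(f z₀).re, hb z₀ hz₀, fun z hz => hmin hz⟩
    · exact ⟨1, one_pos, fun z hz => absurd ⟨z, hz⟩ hne⟩
  have hg : DiffContOnCl ℂ (fun z => cexp (-f z)) U :=
    ⟨fun z hz => ((hf.differentiableOn z hz).neg).cexp, (hf.continuousOn.neg).cexp⟩
  have h := Complex.norm_le_of_forall_mem_frontier_norm_le hU hg (C := Real.exp (-m))
    (fun w hw => by
      rw [Complex.norm_exp, Complex.neg_re]
      exact Real.exp_le_exp.2 (neg_le_neg (hmin w hw))) hz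
  rw [Complex.norm_exp, Complex.neg_re, Real.exp_le_exp] at h
  linarith

/-- The open rectangle. -/
def Rect (x0 x1 y : ℝ) : Set ℂ := Ioo x0 x1 ×ℂ Ioo (-y) y

lemma isBounded_Rect (x0 x1 y : ℝ) : IsBounded (Rect x0 x1 y) := by
  have h : Rect x0 x1 y ⊆ Icc x0 x1 ×ℂ Icc (-y) y := by
    intro z hz
    exact ⟨Ioo_subset_Icc_self hz.1, Ioo_subset_Icc_self hz.2⟩
  exact ((isCompact_Icc.reProdIm isCompact_Icc).isBounded).subset h

lemma closure_Rect {x0 x1 y : ℝ} (hx : x0 < x1) (hy : 0 < y) :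
    closure (Rect x0 x1 y) = Icc x0 x1 ×ℂ Icc (-y) y := by
  rw [Rect, Complex.closure_reProdIm, closure_Ioo hx.ne, closure_Ioo (by linarith)]

/-- The upper half of the boundary. -/
def UB (x0 x1 y : ℝ) (z : ℂ) : Prop :=
  ((z.re = x0 ∨ z.re = x1) ∧ 0 ≤ z.im ∧ z.im ≤ y) ∨ (x0 ≤ z.re ∧ z.re ≤ x1 ∧ z.im = y)

lemma frontier_Rect {x0 x1 y : ℝ} (hx : x0 < x1) (hy : 0 < y) {z : ℂ}
    (hz : z ∈ frontier (Rect x0 x1 y)) : UB x0 x1 y z ∨ UB x0 x1 y (conj z) := by
  rw [Rect, Complex.frontier_reProdIm, closure_Ioo hx.ne, closure_Ioo (by linarith),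
    frontier_Ioo hx, frontier_Ioo (by linarith)] at hz
  rcases hz with ⟨h1, h2⟩ | ⟨h1, h2⟩
  · have h1' : z.re ∈ Icc x0 x1 := h1
    have h2' : z.im ∈ ({-y, y} : Set ℝ) := h2
    rcases h2' with h | h
    · right; right; exact ⟨by simpa using h1'.1, by simpa using h1'.2, by simp [h]⟩
    · left; right; exact ⟨h1'.1, h1'.2, h⟩
  · have h1' : z.re ∈ ({x0, x1} : Set ℝ) := h1
    have h2' : z.im ∈ Icc (-y) y := h2
    rcases le_total 0 z.im with h | h
    · left; left; exact ⟨h1', h, h2'.2⟩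
    · right; left
      refine ⟨by simpa using h1', by simpa using h, ?_⟩
      have := h2'.1
      simp only [Complex.conj_im]; linarith

/-- Rectangle version for functions with the reflection symmetry. -/
theorem re_pos_of_UB {x0 x1 y : ℝ} (hx : x0 < x1) (hy : 0 < y) {f : ℂ → ℂ}
    (hf : ∀ z ∈ Icc x0 x1 ×ℂ Icc (-y) y, DifferentiableAt ℂ f z)
    (hsym : ∀ z, UB x0 x1 y z → f (conj z) = conj (f z))
    (hb : ∀ z, UB x0 x1 y z → 0 < (f z).re) {z : ℂ} (hz : z ∈ Icc x0 x1 ×ℂ Icc (-y) y) :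
    0 < (f z).re := by
  have hcl := closure_Rect hx hy
  refine re_pos_of_frontier (isBounded_Rect x0 x1 y) (f := f) ?_ ?_ (by rw [hcl]; exact hz)
  · refine ⟨fun z hz => (hf z ?_).differentiableWithinAt, fun z hz => (hf z ?_).continuousAt.continuousWithinAt⟩
    · rw [← hcl]; exact subset_closure hz
    · rw [← hcl]; exact hz
  · intro w hw
    rcases frontier_Rect hx hy hw with h | h
    · exact hb w h
    · have h1 := hb _ h
      have h2 := hsym _ h
      rw [Complex.conj_conj] at h2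
      rw [h2]
      simpa using h1

/-- Division by a simple factor. -/
theorem exists_factor {U : Set ℂ} (hU : IsOpen U) {h : ℂ → ℂ} (hd : DifferentiableOn ℂ h U)
    {c : ℂ} (hc : c ∈ U) (h0 : h c = 0) :
    ∃ g : ℂ → ℂ, DifferentiableOn ℂ g U ∧ ∀ z, h z = (z - c) * g z := by
  refine ⟨dslope h c, (Complex.differentiableOn_dslope (hU.mem_nhds hc)).2 hd, fun z => ?_⟩
  have := sub_smul_dslope h c z
  rw [h0, sub_zero, smul_eq_mul] at this
  exact this.symm

end Vale.Agent.P139.H772
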