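import Vale.Agent.P139.H772.EW1
import Vale.Agent.P139.H772.EW2

/-!
# The hard wall Evans functions have only the symmetry zeros, from one dimensional inequalities

`d = 13`.  `Nl l w ρ lam q q'` is the polynomial expression of the Evans function (divided by
`S₃ S₃*`) in the ratios `q = q3` at `lam` and `q' = q3` at `conj lam`.
-/

noncomputable section

open MeasureTheory Set Filter Topology Complex ComplexConjugate

namespace Vale.Agent.P139.H772

open Vale.Agent.P139.KU (S G dG aE bE F0 F0' F0s F0s' Ev Qinf' differentiableAt_G_param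
  differentiableAt_Ev Ev_conj Ev_zero Ev_one Ev_half aE_re aE_conj_re)

/-- The second Kummer parameter, as a real number. -/
def bR (l : ℕ) : ℝ := 13 / 2 + l

lemma bE_eq (l : ℕ) : bE 13 l = ((bR l : ℝ) : ℂ) := by
  simp only [bE, bR]; push_cast; ring

/-- Polynomial expression of the Evans function through the level three ratios. -/
def Nl (l : ℕ) (w ρ : ℝ) (lam q q' : ℂ) : ℂ :=
  (low (aE l w lam) (bR l) ρ q).2 * conj (low (aE l w (conj lam)) (bR l) ρ q').1 +
    (low (aE l w lam) (bR l) ρ q).1 * conj (low (aE l w (conj lam)) (bR l) ρ q').2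

/-- Shift in the normalising factor. -/
def kap : ℕ → ℝ
  | 0 => 33 / 20
  | 1 => 23 / 20
  | 2 => 31 / 20
  | _ => 2

/-- Normalising factor without the symmetry zeros. -/
def den1 (l : ℕ) (lam : ℂ) : ℂ :=
  match l with
  | 0 => (lam + (kap 0 : ℝ)) ^ 4
  | 1 => (lam + (kap 1 : ℝ)) ^ 5
  | (l + 2) => (lam + (kap (l + 2) : ℝ)) ^ 6

/-- Symmetry zeros. -/
def zer (l : ℕ) (lam : ℂ) : ℂ :=
  match l with
  | 0 => lam * (lam - 1)
  | 1 => lam - 1 / 2
  | _ => 1

/-- The ratio at level three. -/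
def Q3 (l : ℕ) (w ρ : ℝ) (lam : ℂ) : ℂ := q3 (aE l w lam) (bR l) ρ

/-- THE ONE DIMENSIONAL INEQUALITY: on the upper half of the boundary of the rectangle
`[-1/20, 11/4] × [-5, 5]`. -/
def BdIneq (l : ℕ) (w ρ : ℝ) : Prop :=
  ∀ lam : ℂ, UB (-1 / 20) (11 / 4) 5 lam →
    0 < (Nl l w ρ lam (Q3 l w ρ lam) (Q3 l w ρ (conj lam)) *
      conj (zer l lam * den1 l lam)).re

/-- The outer inequality, to be used for `4 ≤ l` or `5 ≤ |Im lam|`. -/
def BigIneq (l : ℕ) (w ρ : ℝ) (lam : ℂ) : Prop :=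
  0 < (DS (aE l w lam) (bR l) ρ * conj (S (aE l w lam) (bR l) ρ)).re

/-! ### `Ev` in terms of `S`, `DS` -/

lemma F0_eq (l : ℕ) (w R : ℝ) (lam : ℂ) :
    F0 13 l w lam R = S (aE l w lam) (bR l) ((R ^ 2 / 4 : ℝ)) := by
  simp only [F0, G, bE_eq]

lemma F0'_eq (l : ℕ) (w : ℝ) {R : ℝ} (hR : 0 < R) (lam : ℂ) :
    F0' 13 l w lam R = -(2 / R) * DS (aE l w lam) (bR l) ((R ^ 2 / 4 : ℝ)) := by
  simp only [F0', dG, G, DS, bE_eq]
  have : (R : ℂ) ≠ 0 := by exact_mod_cast hR.ne'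
  push_cast
  field_simp
  ring

/-- the numerator -/
def EvN (l : ℕ) (w ρ : ℝ) (lam : ℂ) : ℂ :=
  DS (aE l w lam) (bR l) ρ * conj (S (aE l w (conj lam)) (bR l) ρ) +
    S (aE l w lam) (bR l) ρ * conj (DS (aE l w (conj lam)) (bR l) ρ)

lemma Ev_eq (l : ℕ) (w : ℝ) {R : ℝ} (hR : 0 < R) (lam : ℂ) :
    Ev 13 l w R lam = -(2 / R) * EvN l w (R ^ 2 / 4) lam := by
  simp only [Ev, F0s, F0s', F0_eq, F0'_eq l w hR, EvN, map_mul, map_neg, map_div₀,
    Complex.conj_ofReal]
  have : conj (2 : ℂ) = 2 := by rw [Complex.conj_eq_iff_im]; norm_num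
  rw [this]
  ring

lemma EvN_eq (l : ℕ) (w : ℝ) {R : ℝ} (hR : 0 < R) (lam : ℂ) :
    EvN l w (R ^ 2 / 4) lam = -(R / 2) * Ev 13 l w R lam := by
  rw [Ev_eq l w hR]
  have : (R : ℂ) ≠ 0 := by exact_mod_cast hR.ne'
  field_simp

/-! ### Level three is zero free -/

/-- `S` at level three. -/
def S3 (l : ℕ) (w ρ : ℝ) (lam : ℂ) : ℂ := S (aE l w lam + 3) (bR l) ρ

lemma S3_ne {l : ℕ} {w ρ : ℝ} {lam : ℂ} (h : -1 / 4 ≤ lam.re) (hρ : 0 < ρ) :
    S3 l w ρ lam ≠ 0 := by
  apply S_ne_zero _ _ hρ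
  · simp only [bR]; have : (0 : ℝ) ≤ l := Nat.cast_nonneg l; linarith
  · simp only [bR, Complex.add_re, aE_re]
    have : (3 : ℂ).re = 3 := by simp
    rw [this]; linarith

lemma EvN_low {l : ℕ} {w ρ : ℝ} {lam : ℂ} (h : -1 / 4 ≤ lam.re) (hρ : 0 < ρ) :
    EvN l w ρ lam = S3 l w ρ lam * conj (S3 l w ρ (conj lam)) *
      Nl l w ρ lam (Q3 l w ρ lam) (Q3 l w ρ (conj lam)) := by
  have hζ : 0 < (ρ : ℂ).re := by simpa using hρ
  have hl : (0 : ℝ) ≤ l := Nat.cast_nonneg l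
  obtain ⟨e1, e2⟩ := pair_low (a := aE l w lam) (ζ := ρ) (bR l : ℂ) (by rw [aE_re]; linarith) hζ
    (S3_ne h hρ)
  obtain ⟨e3, e4⟩ := pair_low (a := aE l w (conj lam)) (ζ := ρ) (bR l : ℂ)
    (by rw [aE_conj_re]; linarith) hζ (S3_ne (lam := conj lam) (by simpa using h) hρ)
  rw [EvN, e1, e2, e3, e4]
  simp only [map_mul, Nl, Q3, S3]
  ring

/-! ### Differentiability -/

lemma differentiableAt_S3 {l : ℕ} {w R : ℝ} {lam : ℂ} (h : -1 / 4 ≤ lam.re) (hR : 0 < R) :
    DifferentiableAt ℂ (S3 l w (R ^ 2 / 4)) lam := by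
  have hl : (0 : ℝ) ≤ l := Nat.cast_nonneg l
  have := differentiableAt_G_param (a := fun z => aE l w z + 3) (b := fun _ => (bR l : ℂ))
    (x := lam) (r := R) hR (by unfold aE; fun_prop) (differentiableAt_const _)
    (by
      have h3 : (3 : ℂ).re = 3 := by simp
      simp only [Complex.add_re, aE_re, h3]; linarith)
  exact this

lemma differentiableAt_S3s {l : ℕ} {w R : ℝ} {lam : ℂ} (h : -1 / 4 ≤ lam.re) (hR : 0 < R) :
    DifferentiableAt ℂ (fun lam => conj (S3 l w (R ^ 2 / 4) (conj lam))) lam := by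
  have := differentiableAt_S3 (l := l) (w := w) (R := R) (lam := conj lam) (by simpa using h) hR
  have h2 := this.conj_conj
  simpa [Function.comp_def] using h2

/-- The open half plane used throughout. -/
def HP : Set ℂ := {z | -1 / 10 < z.re}

lemma isOpen_HP : IsOpen HP := isOpen_lt continuous_const Complex.continuous_re

lemma kap_pos (l : ℕ) : 1 ≤ kap l := by
  rcases l with _ | _ | _ | l <;> simp only [kap] <;> norm_num

lemma add_kap_ne {l : ℕ} {lam : ℂ} (h : lam ∈ HP) : lam + (kap l : ℝ) ≠ 0 := by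
  intro h0
  have h1 := congrArg Complex.re h0
  have h2 : -1 / 10 < lam.re := h
  have h3 := kap_pos l
  simp at h1
  linarith

lemma den1_ne {l : ℕ} {lam : ℂ} (h : lam ∈ HP) : den1 l lam ≠ 0 := by
  rcases l with _ | _ | l <;> simp only [den1] <;> exact pow_ne_zero _ (add_kap_ne h)

lemma differentiable_den1 (l : ℕ) : Differentiable ℂ (den1 l) := by
  rcases l with _ | _ | l
  · have e : den1 0 = fun lam : ℂ => (lam + ((kap 0 : ℝ) : ℂ)) ^ 4 := rfl
    rw [e]; fun_prop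
  · have e : den1 1 = fun lam : ℂ => (lam + ((kap 1 : ℝ) : ℂ)) ^ 5 := rfl
    rw [e]; fun_prop
  · have e : den1 (l + 2) = fun lam : ℂ => (lam + ((kap (l + 2) : ℝ) : ℂ)) ^ 6 := rfl
    rw [e]; fun_prop

lemma conj_den1 (l : ℕ) (lam : ℂ) : den1 l (conj lam) = conj (den1 l lam) := by
  rcases l with _ | _ | l <;> simp [den1]

lemma conj_zer (l : ℕ) (lam : ℂ) : zer l (conj lam) = conj (zer l lam) := by
  have h2 : conj (2 : ℂ) = 2 := by rw [Complex.conj_eq_iff_im]; norm_num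
  rcases l with _ | _ | l <;> simp [zer, h2]

lemma conj_EvN (l : ℕ) (w ρ : ℝ) (lam : ℂ) : EvN l w ρ (conj lam) = conj (EvN l w ρ lam) := by
  simp only [EvN, map_add, map_mul, Complex.conj_conj]
  ring

/-- common factor -/
def cf (l : ℕ) (w ρ : ℝ) (lam : ℂ) : ℂ :=
  S3 l w ρ lam * conj (S3 l w ρ (conj lam)) * den1 l lam

lemma cf_ne {l : ℕ} {w ρ : ℝ} {lam : ℂ} (h : lam ∈ HP) (hρ : 0 < ρ) : cf l w ρ lam ≠ 0 := by
  have h' : -1 / 10 < lam.re := h
  refine mul_ne_zero (mul_ne_zero (S3_ne (by linarith) hρ) ?_) (den1_ne h)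
  simpa using S3_ne (l := l) (w := w) (lam := conj lam) (by simp; linarith) hρ

lemma conj_cf (l : ℕ) (w ρ : ℝ) (lam : ℂ) : cf l w ρ (conj lam) = conj (cf l w ρ lam) := by
  simp only [cf, conj_den1, map_mul, Complex.conj_conj]
  ring

lemma differentiableAt_cf {l : ℕ} {w R : ℝ} {lam : ℂ} (h : lam ∈ HP) (hR : 0 < R) :
    DifferentiableAt ℂ (cf l w (R ^ 2 / 4)) lam := by
  have h' : -1 / 10 < lam.re := h
  exact ((differentiableAt_S3 (by linarith) hR).mul (differentiableAt_S3s (by linarith) hR)).mul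
    (differentiable_den1 l lam)

lemma rect_HP {z : ℂ} (hz : z ∈ Icc (-1 / 20 : ℝ) (11 / 4) ×ℂ Icc (-5 : ℝ) 5) : z ∈ HP := by
  have : (-1 / 20 : ℝ) ≤ z.re := hz.1.1
  show -1 / 10 < z.re
  linarith

/-- Core statement: if `EvN = zer * g` with `g` holomorphic near the rectangle then `g` has no
zero in the rectangle. -/
theorem core {l : ℕ} {w R : ℝ} (hR : 0 < R) (hbd : BdIneq l w (R ^ 2 / 4)) {g : ℂ → ℂ}
    (hg : DifferentiableOn ℂ g HP) (hfac : ∀ z, EvN l w (R ^ 2 / 4) z = zer l z * g z)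
    (hzer : ∀ z, UB (-1 / 20) (11 / 4) 5 z → zer l z ≠ 0)
    {z : ℂ} (hz : z ∈ Icc (-1 / 20 : ℝ) (11 / 4) ×ℂ Icc (-5 : ℝ) 5) : g z ≠ 0 := by
  have hρ : 0 < R ^ 2 / 4 := by positivity
  have key : 0 < (g z / cf l w (R ^ 2 / 4) z).re := by
    refine re_pos_of_UB (x0 := -1 / 20) (x1 := 11 / 4) (y := 5) (by norm_num) (by norm_num)
      (f := fun z => g z / cf l w (R ^ 2 / 4) z) ?_ ?_ ?_ hz
    · intro x hx
      have hx' := rect_HP hx
      exact ((hg x hx').differentiableAt (isOpen_HP.mem_nhds hx')).div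
        (differentiableAt_cf hx' hR) (cf_ne hx' hρ)
    · intro x hx
      have hz0 := hzer x hx
      have e1 := hfac (conj x)
      rw [conj_EvN, hfac x, conj_zer, map_mul] at e1
      have hz1 : conj (zer l x) ≠ 0 := by simpa using hz0
      have e2 := mul_left_cancel₀ hz1 e1
      simp only [conj_cf, map_div₀, e2]
    · intro x hx
      have hxr : x ∈ HP := by
        show -1 / 10 < x.re
        rcases hx with ⟨h, _⟩ | ⟨h, _⟩
        · rcases h with h | h <;> rw [h] <;> norm_num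
        · linarith
      have hxr' : -1 / 10 < x.re := hxr
      have h1 := hbd x hx
      have h2 := EvN_low (l := l) (w := w) (ρ := R ^ 2 / 4) (lam := x) (by linarith) hρ
      rw [hfac] at h2
      have hz0 := hzer x hx
      have hcf := cf_ne (l := l) (w := w) hxr hρ
      have hd := den1_ne (l := l) hxr
      have e : g x / cf l w (R ^ 2 / 4) x =
          Nl l w (R ^ 2 / 4) x (Q3 l w (R ^ 2 / 4) x) (Q3 l w (R ^ 2 / 4) (conj x)) /
            (zer l x * den1 l x) := by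
        rw [div_eq_div_iff hcf (mul_ne_zero hz0 hd)]
        simp only [cf]
        linear_combination (den1 l x) * h2
      rw [e, div_eq_mul_inv, Complex.inv_def, ← mul_assoc, mul_comm _ (((_ : ℝ)) : ℂ),
        Complex.re_ofReal_mul]
      have hpos : 0 < normSq (zer l x * den1 l x) := Complex.normSq_pos.2 (mul_ne_zero hz0 hd)
      exact mul_pos (inv_pos.2 hpos) h1
  intro h0
  rw [h0, zero_div] at key
  simp at key

end Vale.Agent.P139.H772
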