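import Vale.Agent.P139.H772.EW4

/-!
# The one dimensional inequality from ladder sequences

`LadSeq l w ρ lam q` : the sequence `q` satisfies the backward ladder from level `3` on and stays
in the half plane.  The actual ratios `qs` satisfy it.
-/

noncomputable section

open MeasureTheory Set Filter Topology Complex ComplexConjugate

namespace Vale.Agent.P139.H772

open Vale.Agent.P139.KU (S G dG aE bE F0 F0' F0s F0s' Ev Qinf' aE_re aE_conj_re)

/-- `A_n = aE l w lam + n`. -/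
def An (l : ℕ) (w : ℝ) (lam : ℂ) (n : ℕ) : ℂ := aE l w lam + n

/-- `c_n = b - 1 - A_n`. -/
def Cn (l : ℕ) (w : ℝ) (lam : ℂ) (n : ℕ) : ℂ := (bR l : ℂ) - 1 - An l w lam n

/-- Backward ladder with the half plane property, levels `≥ 3`. -/
structure LadSeq (l : ℕ) (w ρ : ℝ) (lam : ℂ) (q : ℕ → ℂ) : Prop where
  half : ∀ n, 3 ≤ n → (bR l - 1) / 2 ≤ (q n).re
  step : ∀ n, 3 ≤ n →
    q n * (q (n + 1) - I * ρ - Cn l w lam n) = An l w lam n * (q (n + 1) - I * ρ)

/-- The actual ratios. -/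
def qs (l : ℕ) (w ρ : ℝ) (lam : ℂ) (n : ℕ) : ℂ :=
  DS (An l w lam n) (bR l) ρ / S (An l w lam n) (bR l) ρ

lemma An_re (l : ℕ) (w : ℝ) (lam : ℂ) (n : ℕ) : (An l w lam n).re = lam.re + l / 2 + n := by
  simp [An, aE_re]

lemma An_succ (l : ℕ) (w : ℝ) (lam : ℂ) (n : ℕ) : An l w lam (n + 1) = An l w lam n + 1 := by
  simp only [An]; push_cast; ring

lemma S_An_ne {l : ℕ} {w ρ : ℝ} {lam : ℂ} (h : -1 / 4 ≤ lam.re) (hρ : 0 < ρ) {n : ℕ}
    (hn : 3 ≤ n) : S (An l w lam n) (bR l) ρ ≠ 0 := by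
  have hn' : (3 : ℝ) ≤ n := by exact_mod_cast hn
  have hl : (0 : ℝ) ≤ l := Nat.cast_nonneg l
  apply S_ne_zero _ _ hρ
  · simp only [bR]; linarith
  · simp only [bR, An_re]; linarith

theorem ladSeq_qs {l : ℕ} {w ρ : ℝ} {lam : ℂ} (h : -1 / 4 ≤ lam.re) (hρ : 0 < ρ) :
    LadSeq l w ρ lam (qs l w ρ lam) := by
  have hl : (0 : ℝ) ≤ l := Nat.cast_nonneg l
  refine ⟨fun n hn => ?_, fun n hn => ?_⟩
  · have hn' : (3 : ℝ) ≤ n := by exact_mod_cast hn
    have hS := S_An_ne (l := l) (w := w) h hρ hn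
    have hf := re_DS (a := An l w lam n) (b := bR l) (ρ := ρ) (by rw [An_re]; linarith)
      (by rw [An_re, bR]; linarith) hρ
    have hN : 0 < normSq (S (An l w lam n) (bR l) ρ) := Complex.normSq_pos.2 hS
    have e : (qs l w ρ lam n).re = (DS (An l w lam n) (bR l) ρ *
        conj (S (An l w lam n) (bR l) ρ)).re / normSq (S (An l w lam n) (bR l) ρ) := by
      simp only [qs]
      rw [Complex.div_re, Complex.mul_re, Complex.conj_re, Complex.conj_im]
      ring
    rw [e, le_div_iff₀ hN]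
    exact hf
  · have hn' : (3 : ℝ) ≤ n := by exact_mod_cast hn
    have hζ : 0 < (ρ : ℂ).re := by simpa using hρ
    have hS := S_An_ne (l := l) (w := w) h hρ hn
    have hS1 := S_An_ne (l := l) (w := w) h hρ (n := n + 1) (by omega)
    have e1 := S_step (a := An l w lam n) (ζ := ρ) (bR l : ℂ) (by rw [An_re]; linarith) hζ
    have e2 := DS_step (a := An l w lam n) (ζ := ρ) (bR l : ℂ) (by rw [An_re]; linarith) hζ
    rw [← An_succ] at e1 e2
    simp only [qs]
    set s := S (An l w lam n) (bR l) ρ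
    set D := DS (An l w lam n) (bR l) ρ
    set s1 := S (An l w lam (n + 1)) (bR l) ρ
    set D1 := DS (An l w lam (n + 1)) (bR l) ρ
    have hI : I * I = -1 := Complex.I_mul_I
    have e3 : D1 / s1 - I * ρ - Cn l w lam n = -I * s / s1 := by
      rw [eq_div_iff hS1, sub_mul, sub_mul, div_mul_cancel₀ _ hS1, e1, Cn, An_succ]
      linear_combination (D1 + (An l w lam n + 1 - bR l) * s1) * hI
    have e4 : An l w lam n * (D1 / s1 - I * ρ) = -I * D / s1 := by
      rw [eq_div_iff hS1, mul_assoc, sub_mul, div_mul_cancel₀ _ hS1, e2]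
      linear_combination (An l w lam n * D1) * hI
    rw [e3, e4]
    field_simp

lemma qs_three (l : ℕ) (w ρ : ℝ) (lam : ℂ) : qs l w ρ lam 3 = Q3 l w ρ lam := by
  simp only [qs, Q3, q3, An]
  norm_num

/-- THE GLUE: an inequality for all ladder sequences implies the inequality for the functions. -/
theorem bdIneq_of_seq {l : ℕ} {w ρ : ℝ} (hρ : 0 < ρ)
    (h : ∀ (lam : ℂ), UB (-1 / 20) (11 / 4) 5 lam → ∀ qa qb : ℕ → ℂ,
      LadSeq l w ρ lam qa → LadSeq l w ρ (conj lam) qb →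
      0 < (Nl l w ρ lam (qa 3) (qb 3) * conj (zer l lam * den1 l lam)).re) :
    BdIneq l w ρ := by
  intro lam hlam
  have hr : -1 / 4 ≤ lam.re := by
    rcases hlam with ⟨h1, _⟩ | ⟨h1, _⟩
    · rcases h1 with h1 | h1 <;> rw [h1] <;> norm_num
    · linarith
  have := h lam hlam _ _ (ladSeq_qs (l := l) (w := w) hr hρ)
    (ladSeq_qs (l := l) (w := w) (lam := conj lam) (by simpa using hr) hρ)
  rwa [qs_three, qs_three] at this

/-- `BigIneq` in terms of `F0`, `F0'`. -/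
theorem bigIneq_iff {l : ℕ} {w R : ℝ} {lam : ℂ} (hR : 0 < R) :
    BigIneq l w (R ^ 2 / 4) lam ↔ (F0' 13 l w lam R * conj (F0 13 l w lam R)).re < 0 := by
  rw [F0_eq, F0'_eq l w hR, BigIneq]
  set z := DS (aE l w lam) (bR l) ((R ^ 2 / 4 : ℝ)) *
    conj (S (aE l w lam) (bR l) ((R ^ 2 / 4 : ℝ))) with hz
  have e : -(2 / (R : ℂ)) * DS (aE l w lam) (bR l) ((R ^ 2 / 4 : ℝ)) *
      conj (S (aE l w lam) (bR l) ((R ^ 2 / 4 : ℝ))) = ((-(2 / R) : ℝ) : ℂ) * z := by
    rw [hz]; push_cast; ring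
  rw [e, Complex.re_ofReal_mul]
  have h2 : 0 < 2 / R := by positivity
  constructor
  · intro h; nlinarith
  · intro h; by_contra h3; nlinarith

end Vale.Agent.P139.H772
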